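import Vale.Agent.Lib.P095U.U8

/-!
# P095U, U9: the unitary group of a limit of prime dimension drop algebras is connected
-/

open Matrix P101
open scoped unitInterval

namespace P095U

universe u

open scoped Matrix.Norms.L2Operator in
theorem U9_isClosed_dimDrop (p q : ℕ) :
    IsClosed (dimDrop p q : Set C(I, Matrix (Fin p × Fin q) (Fin p × Fin q) ℂ)) := by
  have key : ∀ (V : Submodule ℂ (Matrix (Fin p × Fin q) (Fin p × Fin q) ℂ)) (t : I),
      IsClosed {f : C(I, Matrix (Fin p × Fin q) (Fin p × Fin q) ℂ) | f t ∈ V} := by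
    intro V t
    have hV : IsClosed (V : Set (Matrix (Fin p × Fin q) (Fin p × Fin q) ℂ)) :=
      V.closed_of_finiteDimensional
    exact hV.preimage (continuous_eval_const t)
  let L0 : Matrix (Fin p) (Fin p) ℂ →ₗ[ℂ] Matrix (Fin p × Fin q) (Fin p × Fin q) ℂ :=
    { toFun := fun a => kroneckerMap (· * ·) a 1
      map_add' := fun a b => add_kronecker a b 1
      map_smul' := fun z a => smul_kronecker z a 1 }
  let L1 : Matrix (Fin q) (Fin q) ℂ →ₗ[ℂ] Matrix (Fin p × Fin q) (Fin p × Fin q) ℂ :=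
    { toFun := fun b => kroneckerMap (· * ·) 1 b
      map_add' := fun a b => kronecker_add 1 a b
      map_smul' := fun z b => kronecker_smul z 1 b }
  have h := (key (LinearMap.range L0) 0).inter (key (LinearMap.range L1) 1)
  convert h using 1
  ext f
  constructor
  · rintro ⟨⟨a, ha⟩, ⟨b, hb⟩⟩
    exact ⟨⟨a, ha.symm⟩, ⟨b, hb.symm⟩⟩
  · rintro ⟨⟨a, ha⟩, ⟨b, hb⟩⟩
    exact ⟨⟨a, ha.symm⟩, ⟨b, hb.symm⟩⟩

open scoped Matrix.Norms.L2Operator CStarAlgebra in
theorem U9_continuous {Z : Type u} [CStarAlgebra Z] {p q : ℕ} (j : dimDrop p q →⋆ₐ[ℂ] Z) :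
    Continuous j := by
  have : IsClosed (dimDrop p q : Set C(I, Matrix (Fin p × Fin q) (Fin p × Fin q) ℂ)) :=
    U9_isClosed_dimDrop p q
  let _ : CStarAlgebra C(I, Matrix (Fin p × Fin q) (Fin p × Fin q) ℂ) := inferInstance
  let _ : CStarAlgebra (dimDrop p q) := inferInstance
  exact map_continuous j

theorem U9_continuous' {Z : Type u} [CStarAlgebra Z] {p q : ℕ} (j : dimDrop p q →⋆ₐ[ℂ] Z) :
    Continuous j :=
  U9_continuous j

/-- for a unitary `v` in a subalgebra isomorphic to a prime dimension drop algebra: `j : dimDrop p q → Z`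
is a *-homomorphism of C*-algebras (with `open scoped Matrix.Norms.L2Operator` the algebra `C(I, M)` is a
C*-algebra and `dimDrop p q` is closed in it, so `dimDrop p q` is a C*-algebra), hence continuous; `v = j v'`,
`v'` is unitary valued (`j` injective: `j (v'* v') = 1 = j 1`), and the path from `UD_joined` is mapped to a path in
`unitary Z`. -/
theorem joined_of_copy {Z : Type u} [CStarAlgebra Z] {B : StarSubalgebra ℂ Z} {p q : ℕ}
    (hp : 1 ≤ p) (hq : 1 ≤ q) (hpq : Nat.Coprime p q) (h : IsDimDropCopy B p q)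
    (v : unitary Z) (hv : (v : Z) ∈ B) : Joined 1 v := by
  obtain ⟨j, hinj, hrange⟩ := h.iso
  have hjc : Continuous j := U9_continuous' j
  have hvr : (v : Z) ∈ Set.range j := by rw [hrange]; exact hv
  obtain ⟨v', hv'⟩ := hvr
  have hv1 : star v' * v' = 1 := by
    apply hinj
    rw [map_mul, map_star, map_one, hv']
    exact Unitary.coe_star_mul_self v
  have hv2 : v' * star v' = 1 := by
    apply hinj
    rw [map_mul, map_star, map_one, hv']
    exact Unitary.coe_mul_star_self v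
  have hUD : (v' : C(I, Matrix (Fin p × Fin q) (Fin p × Fin q) ℂ)) ∈ UD p q := by
    refine ⟨v'.2, fun t => Unitary.mem_iff.2 ⟨?_, ?_⟩⟩
    · have := congrArg (fun w : dimDrop p q =>
        (w : C(I, Matrix (Fin p × Fin q) (Fin p × Fin q) ℂ)) t) hv1
      exact this
    · have := congrArg (fun w : dimDrop p q =>
        (w : C(I, Matrix (Fin p × Fin q) (Fin p × Fin q) ℂ)) t) hv2
      exact this
  have hJ := UD_joined hp hq hpq _ hUD
  have hmem : ∀ (f : C(I, Matrix (Fin p × Fin q) (Fin p × Fin q) ℂ)) (hf : f ∈ UD p q),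
      j ⟨f, hf.1⟩ ∈ unitary Z := by
    intro f hf
    have h1 : star (⟨f, hf.1⟩ : dimDrop p q) * ⟨f, hf.1⟩ = 1 := by
      apply Subtype.ext
      ext1 t
      exact (Unitary.mem_iff.1 (hf.2 t)).1
    have h2 : (⟨f, hf.1⟩ : dimDrop p q) * star ⟨f, hf.1⟩ = 1 := by
      apply Subtype.ext
      ext1 t
      exact (Unitary.mem_iff.1 (hf.2 t)).2
    rw [Unitary.mem_iff, ← map_star, ← map_mul, ← map_mul, h1, h2, map_one]
    exact ⟨rfl, rfl⟩
  let F : UD p q → unitary Z := fun f => ⟨j ⟨f.1, f.2.1⟩, hmem f.1 f.2⟩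
  have hF : Continuous F := by
    refine Continuous.subtype_mk (hjc.comp ?_) _
    exact Continuous.subtype_mk continuous_subtype_val _
  have hJ' := hJ.joined_subtype
  have h3 := hJ'.map hF
  have e1 : F ⟨1, hJ.source_mem⟩ = 1 := by
    apply Subtype.ext
    exact map_one j
  have e2 : F ⟨(v' : C(I, Matrix (Fin p × Fin q) (Fin p × Fin q) ℂ)), hJ.target_mem⟩ = v := by
    apply Subtype.ext
    exact hv'
  rwa [e1, e2] at h3

theorem U9_norm_aux {B : Type u} [CStarAlgebra B] (b : B) (hb : ‖star b * b - 1‖ ≤ 1 / 2)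
    (hu : IsUnit b) :
    ∃ v : B, v ∈ unitary B ∧ ‖b - v‖ ≤ 1 / 2 := by
  cases subsingleton_or_nontrivial B with
  | inl hs => exact ⟨1, one_mem _, by rw [Subsingleton.elim (b - 1) 0]; norm_num⟩
  | inr hn =>
  let _ : PartialOrder B := CStarAlgebra.spectralOrder B
  have : StarOrderedRing B := CStarAlgebra.spectralOrderedRing B
  let h : B := star b * b
  have hh : 0 ≤ h := star_mul_self_nonneg b
  have hsa : IsSelfAdjoint h := IsSelfAdjoint.star_mul_self b
  let k : B := cfc Real.sqrt h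
  have hspec : ∀ x ∈ spectrum ℝ h, |x - 1| ≤ 1 / 2 := by
    intro x hx
    have h1 : x - 1 ∈ spectrum ℝ (h - 1) := by
      have := spectrum.sub_singleton_eq h (1 : ℝ)
      rw [map_one] at this
      rw [← this]
      exact Set.sub_mem_sub hx rfl
    have h2 : ‖x - 1‖ ≤ ‖h - 1‖ := spectrum.norm_le_norm_of_mem h1
    exact h2.trans hb
  have hspec0 : ∀ x ∈ spectrum ℝ h, 1 / 2 ≤ x := by
    intro x hx
    have := abs_le.1 (hspec x hx)
    linarith [this.1]
  have hkk : k * k = h := by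
    change cfc Real.sqrt h * cfc Real.sqrt h = h
    rw [← cfc_mul Real.sqrt Real.sqrt h]
    conv_rhs => rw [← cfc_id ℝ h]
    refine cfc_congr fun x hx => ?_
    have := hspec0 x hx
    exact Real.mul_self_sqrt (by linarith)
  have hks : star k = k := by
    have : IsSelfAdjoint k := cfc_predicate Real.sqrt h
    exact this
  have hk1 : ‖k - 1‖ ≤ 1 / 2 := by
    have h1 : k - 1 = cfc (fun x : ℝ => Real.sqrt x - 1) h := by
      rw [cfc_sub Real.sqrt (fun _ => (1 : ℝ)) h, cfc_const_one ℝ h]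
    rw [h1]
    refine norm_cfc_le (by norm_num) fun x hx => ?_
    have h2 := hspec x hx
    have h3 := hspec0 x hx
    have h4 : 0 ≤ Real.sqrt x := Real.sqrt_nonneg x
    have h5 : Real.sqrt x * Real.sqrt x = x := Real.mul_self_sqrt (by linarith)
    have h6 : |Real.sqrt x - 1| * (Real.sqrt x + 1) = |x - 1| := by
      rw [← abs_of_nonneg (by linarith : (0 : ℝ) ≤ Real.sqrt x + 1), ← abs_mul]
      congr 1
      nlinarith
    rw [Real.norm_eq_abs]
    have h7 : |Real.sqrt x - 1| ≤ |Real.sqrt x - 1| * (Real.sqrt x + 1) :=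
      le_mul_of_one_le_right (abs_nonneg _) (by linarith)
    linarith
  have hkun : IsUnit k := by
    have : ‖1 - k‖ < 1 := by rw [norm_sub_rev]; linarith
    have h2 := isUnit_one_sub_of_norm_lt_one this
    simpa using h2
  obtain ⟨ku, hku⟩ := hkun
  have hki : ((ku⁻¹ : Bˣ) : B) * k = 1 := by rw [← hku]; exact ku.inv_mul
  have hki' : k * ((ku⁻¹ : Bˣ) : B) = 1 := by rw [← hku]; exact ku.mul_inv
  have hkis : star ((ku⁻¹ : Bˣ) : B) = ((ku⁻¹ : Bˣ) : B) := by
    have h1 : star ((ku⁻¹ : Bˣ) : B) * k = 1 := by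
      have := congrArg star hki'
      rwa [star_mul, star_one, hks] at this
    calc star ((ku⁻¹ : Bˣ) : B) = star ((ku⁻¹ : Bˣ) : B) * (k * ((ku⁻¹ : Bˣ) : B)) := by
          rw [hki', mul_one]
      _ = ((ku⁻¹ : Bˣ) : B) := by rw [← mul_assoc, h1, one_mul]
  let v : B := b * ((ku⁻¹ : Bˣ) : B)
  have hv1 : star v * v = 1 := by
    change star (b * ((ku⁻¹ : Bˣ) : B)) * (b * ((ku⁻¹ : Bˣ) : B)) = 1
    rw [star_mul, hkis]
    calc ((ku⁻¹ : Bˣ) : B) * star b * (b * ((ku⁻¹ : Bˣ) : B))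
        = ((ku⁻¹ : Bˣ) : B) * (star b * b) * ((ku⁻¹ : Bˣ) : B) := by noncomm_ring
      _ = ((ku⁻¹ : Bˣ) : B) * (k * k) * ((ku⁻¹ : Bˣ) : B) := by rw [hkk]
      _ = (((ku⁻¹ : Bˣ) : B) * k) * (k * ((ku⁻¹ : Bˣ) : B)) := by noncomm_ring
      _ = 1 := by rw [hki, hki', mul_one]
  have hvu : IsUnit v := hu.mul (Units.isUnit _)
  have hv2 : v * star v = 1 := by
    obtain ⟨w, hw⟩ := hvu
    have h1 : star v = ((w⁻¹ : Bˣ) : B) := by
      rw [← hw] at hv1
      rw [← hw]
      calc star (w : B) = star (w : B) * ((w : B) * ((w⁻¹ : Bˣ) : B)) := by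
            rw [w.mul_inv, mul_one]
        _ = ((w⁻¹ : Bˣ) : B) := by rw [← mul_assoc, hv1, one_mul]
    rw [h1, ← hw]
    exact w.mul_inv
  have hvm : v ∈ unitary B := Unitary.mem_iff.2 ⟨hv1, hv2⟩
  refine ⟨v, hvm, ?_⟩
  have h1 : b - v = v * (k - 1) := by
    change b - v = b * ((ku⁻¹ : Bˣ) : B) * (k - 1)
    rw [mul_sub, mul_assoc, hki, mul_one, mul_one]
  rw [h1]
  calc ‖v * (k - 1)‖ ≤ ‖v‖ * ‖k - 1‖ := norm_mul_le _ _
    _ ≤ 1 * (1 / 2) := by
        gcongr
        exact (CStarRing.norm_of_mem_unitary hvm).le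
    _ = 1 / 2 := by norm_num

/-- a unitary near a closed *-subalgebra is near a unitary of the subalgebra: `b ∈ B` with
`‖u - b‖ < 1/8`; `b* b` is near `1`, `v = b (b* b)^{-1/2}` (continuous functional calculus inside the
C*-algebra `B`) is a unitary with `‖u - v‖ < 2`. -/
theorem exists_unitary_near {Z : Type u} [CStarAlgebra Z] {B : StarSubalgebra ℂ Z}
    (hB : IsClosed (B : Set Z)) (u : unitary Z) (b : Z) (hb : b ∈ B) (h : ‖(u : Z) - b‖ < 1 / 8) :
    ∃ v : unitary Z, (v : Z) ∈ B ∧ ‖(u : Z) - v‖ < 2 := by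
  cases subsingleton_or_nontrivial Z with
  | inl hs => exact ⟨1, one_mem B, by rw [Subsingleton.elim ((u : Z) - ((1 : unitary Z) : Z)) 0]; norm_num⟩
  | inr hn =>
  have : IsClosed (B : Set Z) := hB
  have hu1 : ‖(u : Z)‖ = 1 := CStarRing.norm_of_mem_unitary u.2
  have hbn : ‖b‖ ≤ 9 / 8 := by
    have : ‖b‖ ≤ ‖(u : Z)‖ + ‖(u : Z) - b‖ := by
      have h1 : b = (u : Z) - ((u : Z) - b) := by abel
      calc ‖b‖ = ‖(u : Z) - ((u : Z) - b)‖ := by rw [← h1]
        _ ≤ _ := norm_sub_le _ _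
    linarith
  have h1 : ‖star b * b - 1‖ ≤ 1 / 2 := by
    have e1 : star b * b - 1 = - (star b * ((u : Z) - b)) - star ((u : Z) - b) * (u : Z) := by
      have : star (u : Z) * (u : Z) = 1 := Unitary.coe_star_mul_self u
      rw [star_sub, sub_mul, mul_sub, this]
      noncomm_ring
    rw [e1]
    calc ‖- (star b * ((u : Z) - b)) - star ((u : Z) - b) * (u : Z)‖
        ≤ ‖- (star b * ((u : Z) - b))‖ + ‖star ((u : Z) - b) * (u : Z)‖ := norm_sub_le _ _
      _ ≤ ‖b‖ * ‖(u : Z) - b‖ + ‖(u : Z) - b‖ * ‖(u : Z)‖ := by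
          rw [norm_neg]
          gcongr
          · calc ‖star b * ((u : Z) - b)‖ ≤ ‖star b‖ * ‖(u : Z) - b‖ := norm_mul_le _ _
              _ = ‖b‖ * ‖(u : Z) - b‖ := by rw [norm_star]
          · calc ‖star ((u : Z) - b) * (u : Z)‖ ≤ ‖star ((u : Z) - b)‖ * ‖(u : Z)‖ := norm_mul_le _ _
              _ = ‖(u : Z) - b‖ * ‖(u : Z)‖ := by rw [norm_star]
      _ ≤ (9 / 8) * (1 / 8) + (1 / 8) * 1 := by
          rw [hu1]
          gcongr
      _ ≤ 1 / 2 := by norm_num
  have h2 : ‖b * star b - 1‖ ≤ 1 / 2 := by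
    have e1 : b * star b - 1 = - (((u : Z) - b) * star b) - (u : Z) * star ((u : Z) - b) := by
      have : (u : Z) * star (u : Z) = 1 := Unitary.coe_mul_star_self u
      rw [star_sub, sub_mul, mul_sub, this]
      noncomm_ring
    rw [e1]
    calc ‖- (((u : Z) - b) * star b) - (u : Z) * star ((u : Z) - b)‖
        ≤ ‖- (((u : Z) - b) * star b)‖ + ‖(u : Z) * star ((u : Z) - b)‖ := norm_sub_le _ _
      _ ≤ ‖(u : Z) - b‖ * ‖b‖ + ‖(u : Z)‖ * ‖(u : Z) - b‖ := by
          rw [norm_neg]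
          gcongr
          · calc ‖((u : Z) - b) * star b‖ ≤ ‖(u : Z) - b‖ * ‖star b‖ := norm_mul_le _ _
              _ = ‖(u : Z) - b‖ * ‖b‖ := by rw [norm_star]
          · calc ‖(u : Z) * star ((u : Z) - b)‖ ≤ ‖(u : Z)‖ * ‖star ((u : Z) - b)‖ := norm_mul_le _ _
              _ = ‖(u : Z)‖ * ‖(u : Z) - b‖ := by rw [norm_star]
      _ ≤ (1 / 8) * (9 / 8) + 1 * (1 / 8) := by
          rw [hu1]
          gcongr
      _ ≤ 1 / 2 := by norm_num
  let b' : B := ⟨b, hb⟩
  have hn1 : ‖star b' * b' - 1‖ ≤ 1 / 2 := h1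
  have hn2 : ‖b' * star b' - 1‖ ≤ 1 / 2 := h2
  have hunit : IsUnit b' := by
    have hl : IsUnit (star b' * b') := by
      have : ‖1 - star b' * b'‖ < 1 := by rw [norm_sub_rev]; linarith
      have h2 := isUnit_one_sub_of_norm_lt_one this
      simpa using h2
    have hr : IsUnit (b' * star b') := by
      have : ‖1 - b' * star b'‖ < 1 := by rw [norm_sub_rev]; linarith
      have h2 := isUnit_one_sub_of_norm_lt_one this
      simpa using h2
    obtain ⟨x, hx⟩ := hl
    obtain ⟨y, hy⟩ := hr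
    refine isUnit_iff_exists.2 ⟨star b' * ((y⁻¹ : Bˣ) : B), ?_, ?_⟩
    · rw [← mul_assoc, ← hy]
      exact y.mul_inv
    · have e1 : (((x⁻¹ : Bˣ) : B) * star b') * b' = 1 := by
        rw [mul_assoc, ← hx]
        exact x.inv_mul
      have e2 : b' * (star b' * ((y⁻¹ : Bˣ) : B)) = 1 := by
        rw [← mul_assoc, ← hy]
        exact y.mul_inv
      have e3 : star b' * ((y⁻¹ : Bˣ) : B) = ((x⁻¹ : Bˣ) : B) * star b' := by
        calc star b' * ((y⁻¹ : Bˣ) : B)
            = ((((x⁻¹ : Bˣ) : B) * star b') * b') * (star b' * ((y⁻¹ : Bˣ) : B)) := by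
              rw [e1, one_mul]
          _ = (((x⁻¹ : Bˣ) : B) * star b') * (b' * (star b' * ((y⁻¹ : Bˣ) : B))) := by
              rw [mul_assoc]
          _ = ((x⁻¹ : Bˣ) : B) * star b' := by rw [e2, mul_one]
      rw [e3]
      exact e1
  obtain ⟨v, hv, hbv⟩ := U9_norm_aux b' hn1 hunit
  have hvZ : (v : Z) ∈ unitary Z := by
    rw [Unitary.mem_iff] at hv ⊢
    exact ⟨congrArg Subtype.val hv.1, congrArg Subtype.val hv.2⟩
  refine ⟨⟨(v : Z), hvZ⟩, v.2, ?_⟩
  have hbv' : ‖b - (v : Z)‖ ≤ 1 / 2 := hbv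
  calc ‖(u : Z) - (v : Z)‖ = ‖((u : Z) - b) + (b - (v : Z))‖ := by congr 1; abel
    _ ≤ ‖(u : Z) - b‖ + ‖b - (v : Z)‖ := norm_add_le _ _
    _ < 2 := by linarith

/-- **Main theorem.** -/
theorem connected_unitary {Z : Type u} [CStarAlgebra Z] (h : IsDimDropLimit Z) :
    ConnectedSpace (unitary Z) := by
  obtain ⟨B, -, hd, hc⟩ := h
  have hj : ∀ u : unitary Z, Joined 1 u := by
    intro u
    obtain ⟨b, hb, hbu⟩ := Metric.dense_iff.1 hd (u : Z) (1 / 8) (by norm_num)
    rw [Set.mem_iUnion] at hbu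
    obtain ⟨k, hk⟩ := hbu
    obtain ⟨p, q, hp, hq, hpq, hcopy⟩ := hc k
    have h8 : ‖(u : Z) - b‖ < 1 / 8 := by
      rw [← dist_eq_norm, dist_comm]
      exact hb
    obtain ⟨v, hv, huv⟩ := exists_unitary_near hcopy.isClosed u b hk h8
    exact (joined_of_copy hp hq hpq hcopy v hv).trans (Unitary.joined v u huv)
  have : PathConnectedSpace (unitary Z) := ⟨⟨1⟩, fun u v => (hj u).symm.trans (hj v)⟩
  infer_instance

end P095U
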