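import Mathlib.Analysis.CStarAlgebra.Classes
import Mathlib.Analysis.Complex.Polynomial.Basic
import Mathlib.FieldTheory.IsSepClosed
import Mathlib.LinearAlgebra.Matrix.DotProduct

/-!
# P095U, U1: rotations

For unit vectors `x`, `y` with `y ≠ -x` the matrix `rot x y` is unitary and takes `x` to `y`.
Write `u = x + y`, `c = 1 + y* x`.  `H = u u* / c - 1`: `H x = u (u* x) / c - x = y` as
`u* x = 1 + y* x = c`.  `H* H = 1`: `H* H = u u* (u* u) / |c|² - u u* / c - u u* / c̄ + 1` and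
`u* u = 2 + y* x + x* y = c + c̄`, `(c + c̄)/|c|² = 1/c + 1/c̄`.  `rot x y = H (2 x x* - 1)`.
`rot y x * rot x y = 1`: `H` takes `x` to `y`, so `H (2 x x* - 1) = (2 y y* - 1) H`, and
`(u u*/c̄ - 1) (u u*/c - 1) = 1`.
-/

open Matrix

namespace P095U

variable {ι : Type*} [Fintype ι] [DecidableEq ι]

/-- the rank one matrix `x y*` -/
def rk (x y : ι → ℂ) : Matrix ι ι ℂ := vecMulVec x (star y)

/-- the rotation taking the unit vector `x` to the unit vector `y ≠ -x` -/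
noncomputable def rot (x y : ι → ℂ) : Matrix ι ι ℂ :=
  ((1 + star y ⬝ᵥ x)⁻¹ • rk (x + y) (x + y) - 1) * ((2 : ℂ) • rk x x - 1)

theorem U1_rk_mulVec (x y z : ι → ℂ) : rk x y *ᵥ z = (star y ⬝ᵥ z) • x := by
  rw [rk, vecMulVec_mulVec]
  ext i
  simp [mul_comm]

theorem U1_mul_rk (A : Matrix ι ι ℂ) (x y : ι → ℂ) : A * rk x y = rk (A *ᵥ x) y := by
  rw [rk, mul_vecMulVec, rk]

theorem U1_rk_smul (a : ℂ) (x y : ι → ℂ) : rk (a • x) y = a • rk x y := by
  ext i j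
  simp [rk, vecMulVec_apply, mul_assoc]

theorem U1_rk_mul_rk (x y z w : ι → ℂ) : rk x y * rk z w = (star y ⬝ᵥ z) • rk x w := by
  rw [U1_mul_rk, U1_rk_mulVec, U1_rk_smul]

theorem U1_star_rk (x y : ι → ℂ) : star (rk x y) = rk y x := by
  rw [rk, star_eq_conjTranspose, conjTranspose_vecMulVec, star_star, rk]

theorem U1_rk_mul (A : Matrix ι ι ℂ) (x y : ι → ℂ) : rk x y * A = rk x (star A *ᵥ y) := by
  have h := U1_mul_rk (star A) y x
  have h2 := congrArg star h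
  rw [star_mul, U1_star_rk, star_star, U1_star_rk] at h2
  exact h2

theorem U1_conj (x y : ι → ℂ) : star x ⬝ᵥ y = star (star y ⬝ᵥ x) := by
  rw [star_dotProduct]

theorem U1_add_self {x y : ι → ℂ} (hx : star x ⬝ᵥ x = 1) (hy : star y ⬝ᵥ y = 1) :
    star (x + y) ⬝ᵥ (x + y) = (1 + star y ⬝ᵥ x) + (1 + star x ⬝ᵥ y) := by
  rw [star_add, add_dotProduct, dotProduct_add, dotProduct_add, hx, hy]
  ring

open scoped ComplexOrder in
theorem one_add_ne_zero {x y : ι → ℂ} (hx : star x ⬝ᵥ x = 1) (hy : star y ⬝ᵥ y = 1)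
    (h : y ≠ -x) : 1 + star y ⬝ᵥ x ≠ 0 := by
  intro h0
  apply h
  have h1 : 1 + star x ⬝ᵥ y = 0 := by
    have h2 := congrArg star h0
    rwa [star_add, star_one, star_zero, ← U1_conj] at h2
  have h3 := U1_add_self hx hy
  rw [h0, h1, add_zero] at h3
  have h4 : x + y = 0 := dotProduct_star_self_eq_zero.mp h3
  exact (neg_eq_of_add_eq_zero_right h4).symm

/-- the first factor of the rotation -/
noncomputable def U1_H (x y : ι → ℂ) : Matrix ι ι ℂ :=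
  (1 + star y ⬝ᵥ x)⁻¹ • rk (x + y) (x + y) - 1

/-- the second factor of the rotation -/
noncomputable def U1_R (x : ι → ℂ) : Matrix ι ι ℂ := (2 : ℂ) • rk x x - 1

theorem U1_rot (x y : ι → ℂ) : rot x y = U1_H x y * U1_R x := rfl

theorem U1_R_mul (x : ι → ℂ) (hx : star x ⬝ᵥ x = 1) : U1_R x * U1_R x = 1 := by
  have h : rk x x * rk x x = rk x x := by rw [U1_rk_mul_rk, hx, one_smul]
  have h2 : U1_R x * U1_R x = (4 : ℂ) • (rk x x * rk x x) - (4 : ℂ) • rk x x + 1 := by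
    unfold U1_R
    simp only [sub_mul, mul_sub, smul_mul_assoc, mul_smul_comm, smul_smul, one_mul, mul_one]
    module
  rw [h2, h]
  abel

theorem U1_R_star (x : ι → ℂ) : star (U1_R x) = U1_R x := by
  unfold U1_R
  rw [star_sub, star_smul, U1_star_rk, star_one]
  simp

theorem U1_R_mulVec (x : ι → ℂ) (hx : star x ⬝ᵥ x = 1) : U1_R x *ᵥ x = x := by
  unfold U1_R
  rw [sub_mulVec, smul_mulVec, U1_rk_mulVec, hx, one_mulVec]
  module

theorem U1_H_mulVec {x y : ι → ℂ} (hx : star x ⬝ᵥ x = 1) (hy : star y ⬝ᵥ y = 1)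
    (h : y ≠ -x) : U1_H x y *ᵥ x = y := by
  have h0 := one_add_ne_zero hx hy h
  unfold U1_H
  rw [sub_mulVec, smul_mulVec, U1_rk_mulVec, one_mulVec, star_add, add_dotProduct, hx, smul_smul,
    inv_mul_cancel₀ h0, one_smul]
  abel

theorem U1_H_swap_mul {x y : ι → ℂ} (hx : star x ⬝ᵥ x = 1) (hy : star y ⬝ᵥ y = 1)
    (h : y ≠ -x) : U1_H y x * U1_H x y = 1 := by
  have h0 := one_add_ne_zero hx hy h
  have h1 : 1 + star x ⬝ᵥ y ≠ 0 := by
    refine one_add_ne_zero hy hx fun h' => h ?_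
    rw [h', neg_neg]
  have h2 := U1_add_self hx hy
  unfold U1_H
  rw [add_comm y x]
  generalize 1 + star y ⬝ᵥ x = c at h0 h2 ⊢
  generalize 1 + star x ⬝ᵥ y = d at h1 h2 ⊢
  have h3 : rk (x + y) (x + y) * rk (x + y) (x + y) = (c + d) • rk (x + y) (x + y) := by
    rw [U1_rk_mul_rk, h2]
  have h4 : d⁻¹ * (c⁻¹ * (c + d)) = d⁻¹ + c⁻¹ := by
    field_simp
  have h5 : (d⁻¹ • rk (x + y) (x + y)) * (c⁻¹ • rk (x + y) (x + y)) =
      d⁻¹ • rk (x + y) (x + y) + c⁻¹ • rk (x + y) (x + y) := by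
    rw [smul_mul_smul_comm, h3, smul_smul, mul_assoc, h4, add_smul]
  rw [sub_mul, mul_sub, h5, one_mul, mul_one]
  abel

theorem U1_H_star (x y : ι → ℂ) : star (U1_H x y) = U1_H y x := by
  unfold U1_H
  rw [star_sub, star_smul, U1_star_rk, star_one, star_inv₀, star_add, star_one, ← U1_conj,
    add_comm y x]

theorem U1_swap {x y : ι → ℂ} (h : y ≠ -x) : x ≠ -y := fun h' => h (by rw [h', neg_neg])

theorem U1_comm {x y : ι → ℂ} (hx : star x ⬝ᵥ x = 1) (hy : star y ⬝ᵥ y = 1)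
    (h : y ≠ -x) : U1_R y * U1_H x y = U1_H x y * U1_R x := by
  have h1 : rk y y * U1_H x y = U1_H x y * rk x x := by
    rw [U1_rk_mul, U1_H_star, U1_H_mulVec hy hx (U1_swap h), U1_mul_rk, U1_H_mulVec hx hy h]
  unfold U1_R
  rw [sub_mul, mul_sub, smul_mul_assoc, h1, mul_smul_comm, one_mul, mul_one]

theorem rot_mulVec {x y : ι → ℂ} (hx : star x ⬝ᵥ x = 1) (hy : star y ⬝ᵥ y = 1)
    (h : y ≠ -x) : rot x y *ᵥ x = y := by
  rw [U1_rot, ← mulVec_mulVec, U1_R_mulVec x hx, U1_H_mulVec hx hy h]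

theorem rot_mem_unitary {x y : ι → ℂ} (hx : star x ⬝ᵥ x = 1) (hy : star y ⬝ᵥ y = 1)
    (h : y ≠ -x) : rot x y ∈ unitary (Matrix ι ι ℂ) := by
  rw [Unitary.mem_iff, U1_rot, star_mul, U1_R_star, U1_H_star]
  constructor
  · rw [mul_assoc, ← mul_assoc (U1_H y x), U1_H_swap_mul hx hy h, one_mul, U1_R_mul x hx]
  · rw [mul_assoc, ← mul_assoc (U1_R x), U1_R_mul x hx, one_mul, U1_H_swap_mul hy hx (U1_swap h)]

theorem rot_self {x : ι → ℂ} (hx : star x ⬝ᵥ x = 1) : rot x x = 1 := by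
  have h : U1_H x x = U1_R x := by
    unfold U1_H U1_R
    rw [hx, ← two_smul ℂ x, U1_rk_smul]
    have h2 : rk x ((2 : ℂ) • x) = (2 : ℂ) • rk x x := by
      rw [← U1_star_rk, U1_rk_smul, star_smul, U1_star_rk]
      simp
    rw [h2, smul_smul, smul_smul]
    norm_num
  rw [U1_rot, h, U1_R_mul x hx]

theorem rot_mul_rot {x y : ι → ℂ} (hx : star x ⬝ᵥ x = 1) (hy : star y ⬝ᵥ y = 1)
    (h : y ≠ -x) : rot y x * rot x y = 1 := by
  rw [U1_rot, U1_rot, mul_assoc, ← mul_assoc (U1_R y), U1_comm hx hy h, mul_assoc (U1_H x y),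
    U1_R_mul x hx, mul_one, U1_H_swap_mul hx hy h]

theorem continuous_rot {T : Type*} [TopologicalSpace T] {x y : T → ι → ℂ} (hx : Continuous x)
    (hy : Continuous y) (hx1 : ∀ t, star (x t) ⬝ᵥ x t = 1) (hy1 : ∀ t, star (y t) ⬝ᵥ y t = 1)
    (h : ∀ t, y t ≠ -x t) : Continuous fun t => rot (x t) (y t) := by
  have hrk : ∀ {u v : T → ι → ℂ}, Continuous u → Continuous v →
      Continuous fun t => rk (u t) (v t) := fun hu hv =>
    hu.matrix_vecMulVec (continuous_star.comp hv)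
  have hc : Continuous fun t => (1 + star (y t) ⬝ᵥ x t)⁻¹ :=
    Continuous.inv₀ (continuous_const.add (Continuous.dotProduct (continuous_star.comp hy) hx))
      (fun t => one_add_ne_zero (hx1 t) (hy1 t) (h t))
  unfold rot
  refine Continuous.matrix_mul ?_ ?_
  · exact (hc.smul (hrk (hx.add hy) (hx.add hy))).sub continuous_const
  · exact ((hrk hx hx).const_smul (2 : ℂ)).sub continuous_const

/-- normalization of a vector -/
noncomputable def nrm (x : ι → ℂ) : ι → ℂ := ((Real.sqrt (star x ⬝ᵥ x).re : ℝ) : ℂ)⁻¹ • x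

open scoped ComplexOrder in
theorem U1_self (x : ι → ℂ) : star x ⬝ᵥ x = (((star x ⬝ᵥ x).re : ℝ) : ℂ) ∧
    0 ≤ (star x ⬝ᵥ x).re := by
  have h : (0 : ℂ) ≤ star x ⬝ᵥ x := dotProduct_star_self_nonneg x
  rw [Complex.le_def] at h
  refine ⟨Complex.ext (by simp) ?_, by simpa using h.1⟩
  rw [Complex.ofReal_im]
  exact h.2.symm

open scoped ComplexOrder in
theorem U1_self_pos {x : ι → ℂ} (hx : x ≠ 0) : 0 < (star x ⬝ᵥ x).re := by
  refine lt_of_le_of_ne (U1_self x).2 fun h => hx ?_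
  rw [← dotProduct_star_self_eq_zero, (U1_self x).1, ← h, Complex.ofReal_zero]

/-- the length -/
noncomputable def U1_len (x : ι → ℂ) : ℝ := Real.sqrt (star x ⬝ᵥ x).re

theorem U1_len_pos {x : ι → ℂ} (hx : x ≠ 0) : 0 < U1_len x := Real.sqrt_pos.mpr (U1_self_pos hx)

theorem U1_nrm (x : ι → ℂ) : nrm x = ((U1_len x : ℝ) : ℂ)⁻¹ • x := rfl

theorem U1_smul_nrm {x : ι → ℂ} (hx : x ≠ 0) : ((U1_len x : ℝ) : ℂ) • nrm x = x := by
  have h : ((U1_len x : ℝ) : ℂ) ≠ 0 := by exact_mod_cast (U1_len_pos hx).ne'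
  rw [U1_nrm, smul_smul, mul_inv_cancel₀ h, one_smul]

theorem U1_self_smul (a : ℝ) (x : ι → ℂ) :
    star ((a : ℂ) • x) ⬝ᵥ ((a : ℂ) • x) = ((a ^ 2 : ℝ) : ℂ) * (star x ⬝ᵥ x) := by
  rw [star_smul, smul_dotProduct, dotProduct_smul, smul_eq_mul, smul_eq_mul]
  have h : star (a : ℂ) = (a : ℂ) := by simp
  rw [h]
  push_cast
  ring

theorem nrm_unit {x : ι → ℂ} (hx : x ≠ 0) : star (nrm x) ⬝ᵥ nrm x = 1 := by
  have h : ((U1_len x : ℝ) : ℂ)⁻¹ = (((U1_len x)⁻¹ : ℝ) : ℂ) := by push_cast; rfl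
  rw [U1_nrm, h, U1_self_smul, (U1_self x).1, ← Complex.ofReal_mul]
  have h2 : (U1_len x)⁻¹ ^ 2 * (star x ⬝ᵥ x).re = 1 := by
    have h3 : U1_len x ^ 2 = (star x ⬝ᵥ x).re := Real.sq_sqrt (U1_self x).2
    rw [← h3, ← mul_pow, inv_mul_cancel₀ (U1_len_pos hx).ne', one_pow]
  rw [h2, Complex.ofReal_one]

theorem nrm_of_unit {x : ι → ℂ} (hx : star x ⬝ᵥ x = 1) : nrm x = x := by
  unfold nrm
  rw [hx]
  simp

theorem continuous_nrm {T : Type*} [TopologicalSpace T] {x : T → ι → ℂ} (hx : Continuous x)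
    (h : ∀ t, x t ≠ 0) : Continuous fun t => nrm (x t) := by
  have h1 : Continuous fun t => U1_len (x t) :=
    Real.continuous_sqrt.comp (Complex.continuous_re.comp
      (Continuous.dotProduct (continuous_star.comp hx) hx))
  have h2 : Continuous fun t => ((U1_len (x t) : ℝ) : ℂ)⁻¹ :=
    Continuous.inv₀ (Complex.continuous_ofReal.comp h1)
      (fun t => by exact_mod_cast (U1_len_pos (h t)).ne')
  exact h2.smul hx

theorem U1_coef {x y : ι → ℂ} (hx : star x ⬝ᵥ x = 1) (hy : star y ⬝ᵥ y = 1) {a b : ℝ}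
    (ha : 0 ≤ a) (hb : 0 ≤ b) (h : (a : ℂ) • x = -((b : ℂ) • y)) : a = b := by
  have h1 := U1_self_smul a x
  have h2 := U1_self_smul b y
  rw [h, star_neg, neg_dotProduct, dotProduct_neg, neg_neg, h2, hx, hy, mul_one, mul_one,
    Complex.ofReal_inj] at h1
  exact ((sq_eq_sq₀ hb ha).mp h1).symm

theorem U1_coef_zero {x y : ι → ℂ} (hx : star x ⬝ᵥ x = 1) (hy : star y ⬝ᵥ y = 1)
    (hxy : y ≠ -x) {a b : ℝ}
    (ha : 0 ≤ a) (hb : 0 ≤ b) (h : (a : ℂ) • x = -((b : ℂ) • y)) : a = 0 ∧ b = 0 := by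
  have h1 := U1_coef hx hy ha hb h
  by_cases hz : a = 0
  · exact ⟨hz, h1 ▸ hz⟩
  · exfalso
    apply hxy
    rw [← h1] at h
    have hz' : (a : ℂ) ≠ 0 := by exact_mod_cast hz
    have h2 : (a : ℂ) • y = (a : ℂ) • (-x) := by rw [smul_neg, h, neg_neg]
    exact smul_right_injective _ hz' h2

/-- the segment between two unit vectors that are not antipodal does not meet zero -/
theorem seg_ne_zero {x y : ι → ℂ} (hx : star x ⬝ᵥ x = 1) (hy : star y ⬝ᵥ y = 1)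
    (h : y ≠ -x) (s : ℝ) (h0 : 0 ≤ s) (h1 : s ≤ 1) :
    ((1 - s : ℝ) : ℂ) • x + ((s : ℝ) : ℂ) • y ≠ 0 := by
  intro h2
  obtain ⟨h3, h4⟩ := U1_coef_zero hx hy h (by linarith) h0 (eq_neg_of_add_eq_zero_left h2)
  linarith

/-- its normalization is not the antipode of `y` -/
theorem nrm_seg_ne {x y : ι → ℂ} (hx : star x ⬝ᵥ x = 1) (hy : star y ⬝ᵥ y = 1)
    (h : y ≠ -x) (s : ℝ) (h0 : 0 ≤ s) (h1 : s ≤ 1) :
    nrm (((1 - s : ℝ) : ℂ) • x + ((s : ℝ) : ℂ) • y) ≠ -y ∧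
      nrm (((1 - s : ℝ) : ℂ) • x + ((s : ℝ) : ℂ) • y) ≠ -x := by
  have h2 := seg_ne_zero hx hy h s h0 h1
  have h3 := U1_smul_nrm h2
  have h4 := U1_len_pos h2
  generalize hz : ((1 - s : ℝ) : ℂ) • x + ((s : ℝ) : ℂ) • y = z at h2 h3 h4 ⊢
  constructor
  · intro h5
    rw [h5, smul_neg] at h3
    have h6 : ((1 - s : ℝ) : ℂ) • x = -(((s + U1_len z : ℝ) : ℂ) • y) := by
      rw [← h3] at hz
      rw [Complex.ofReal_add, add_smul, eq_sub_of_add_eq hz]
      abel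
    have h7 := (U1_coef_zero hx hy h (by linarith) (by linarith) h6).2
    linarith
  · intro h5
    rw [h5, smul_neg] at h3
    have h6 : (((1 - s) + U1_len z : ℝ) : ℂ) • x = -(((s : ℝ) : ℂ) • y) := by
      rw [← h3] at hz
      rw [Complex.ofReal_add, add_smul, eq_sub_of_add_eq hz]
      abel
    have h7 := (U1_coef_zero hx hy h (by linarith) h0 h6).1
    linarith

end P095U
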