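import Mathlib.Analysis.CStarAlgebra.Classes
import Mathlib.Analysis.SpecialFunctions.Trigonometric.Basic
import Mathlib.Topology.Connected.PathConnected
import Mathlib.Topology.ContinuousMap.Star
import Mathlib.Topology.Instances.Matrix

/-!
# P095U, U2: based loops in the unitary groups `U(ι)`
-/

open Matrix
open scoped unitInterval

namespace P095U

variable {ι : Type*} [Fintype ι] [DecidableEq ι]

/-- based loops in the unitary group of `M_ι(ℂ)` -/
def Om (ι : Type*) [Fintype ι] [DecidableEq ι] : Set C(I, Matrix ι ι ℂ) :=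
  {f | (∀ t, f t ∈ unitary (Matrix ι ι ℂ)) ∧ f 0 = 1 ∧ f 1 = 1}

/-- `ContinuousMap.curry` -/
theorem joinedIn_of_homotopy (S : Set C(I, Matrix ι ι ℂ)) (H : C(I × I, Matrix ι ι ℂ))
    (hS : ∀ s, (⟨fun t => H (s, t), by fun_prop⟩ : C(I, Matrix ι ι ℂ)) ∈ S)
    {f g : C(I, Matrix ι ι ℂ)} (hf : ∀ t, H (0, t) = f t) (hg : ∀ t, H (1, t) = g t) :
    JoinedIn S f g := by
  refine ⟨⟨H.curry, ?_, ?_⟩, fun s => hS s⟩
  · ext1 t
    exact hf t
  · ext1 t
    exact hg t

theorem one_mem_Om : (1 : C(I, Matrix ι ι ℂ)) ∈ Om ι := by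
  exact ⟨fun _ => one_mem _, rfl, rfl⟩

theorem mul_mem_Om {f g : C(I, Matrix ι ι ℂ)} (hf : f ∈ Om ι) (hg : g ∈ Om ι) :
    f * g ∈ Om ι := by
  refine ⟨fun t => mul_mem (hf.1 t) (hg.1 t), ?_, ?_⟩
  · rw [ContinuousMap.mul_apply, hf.2.1, hg.2.1, one_mul]
  · rw [ContinuousMap.mul_apply, hf.2.2, hg.2.2, one_mul]

theorem star_mem_Om {f : C(I, Matrix ι ι ℂ)} (hf : f ∈ Om ι) : star f ∈ Om ι := by
  refine ⟨fun t => Unitary.star_mem (hf.1 t), ?_, ?_⟩
  · rw [ContinuousMap.star_apply, hf.2.1, star_one]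
  · rw [ContinuousMap.star_apply, hf.2.2, star_one]

/-- products of homotopies, for any set closed under products -/
theorem joinedIn_mul {S : Set C(I, Matrix ι ι ℂ)} (hS : ∀ f ∈ S, ∀ g ∈ S, f * g ∈ S)
    {f g f' g' : C(I, Matrix ι ι ℂ)} (h : JoinedIn S f g) (h' : JoinedIn S f' g') :
    JoinedIn S (f * f') (g * g') := by
  obtain ⟨γ, hγ⟩ := h
  obtain ⟨γ', hγ'⟩ := h'
  exact ⟨γ.mul γ', fun t => hS _ (hγ t) _ (hγ' t)⟩

theorem joinedIn_star {S : Set C(I, Matrix ι ι ℂ)} (hS : ∀ f ∈ S, star f ∈ S)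
    {f g : C(I, Matrix ι ι ℂ)} (h : JoinedIn S f g) : JoinedIn S (star f) (star g) := by
  obtain ⟨γ, hγ⟩ := h
  have hc : Continuous (fun f : C(I, Matrix ι ι ℂ) => star f) :=
    ContinuousMap.continuous_postcomp ⟨star, continuous_star⟩
  refine ⟨⟨⟨fun t => star (γ t), hc.comp γ.continuous⟩, ?_, ?_⟩, fun t => hS _ (hγ t)⟩
  · simp
  · simp

/-- diagonal loops -/
noncomputable def dg (k : ι → ℤ) : C(I, Matrix ι ι ℂ) where
  toFun t := diagonal fun x => Complex.exp (2 * Real.pi * Complex.I * (k x : ℂ) * ((t : ℝ) : ℂ))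
  continuous_toFun := by fun_prop

theorem dg_apply (k : ι → ℤ) (t : I) :
    dg k t = diagonal fun x => Complex.exp (2 * Real.pi * Complex.I * (k x : ℂ) * ((t : ℝ) : ℂ)) :=
  rfl

theorem dg_mem (k : ι → ℤ) : dg k ∈ Om ι := by
  have h1 : ∀ (m : ℤ) (t : ℝ), star (Complex.exp (2 * Real.pi * Complex.I * (m : ℂ) * (t : ℂ))) *
      Complex.exp (2 * Real.pi * Complex.I * (m : ℂ) * (t : ℂ)) = 1 := by
    intro m t
    rw [Complex.star_def, ← Complex.exp_conj, ← Complex.exp_add]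
    have h2 : (starRingEnd ℂ) (2 : ℂ) = 2 := Complex.conj_ofNat 2
    simp [h2]
  have h2 : ∀ m : ℤ, Complex.exp (2 * Real.pi * Complex.I * (m : ℂ)) = 1 := by
    intro m
    rw [show (2 * Real.pi * Complex.I * (m : ℂ) : ℂ) = m * (2 * Real.pi * Complex.I) by ring]
    exact Complex.exp_int_mul_two_pi_mul_I m
  refine ⟨fun t => ?_, ?_, ?_⟩
  · rw [dg_apply, Unitary.mem_iff, star_eq_conjTranspose, diagonal_conjTranspose,
      diagonal_mul_diagonal, diagonal_mul_diagonal, ← diagonal_one]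
    constructor
    · congr 1
      ext x
      exact h1 (k x) t
    · congr 1
      ext x
      rw [mul_comm]
      exact h1 (k x) t
  · rw [dg_apply, ← diagonal_one]
    congr 1
    ext x
    simp
  · rw [dg_apply, ← diagonal_one]
    congr 1
    ext x
    simpa using h2 (k x)

theorem dg_zero : dg (0 : ι → ℤ) = 1 := by
  ext1 t
  rw [dg_apply, ContinuousMap.one_apply, ← diagonal_one]
  congr 1
  ext x
  simp

theorem dg_add (k l : ι → ℤ) : dg (k + l) = dg k * dg l := by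
  ext1 t
  rw [ContinuousMap.mul_apply, dg_apply, dg_apply, dg_apply, diagonal_mul_diagonal]
  congr 1
  ext x
  rw [← Complex.exp_add]
  congr 1
  simp only [Pi.add_apply, Int.cast_add]
  ring

end P095U
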