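import Mathlib.Algebra.Order.Ring.Star
import Mathlib.Algebra.Order.Star.Real
import Mathlib.Analysis.Calculus.ContDiff.Polynomial
import Mathlib.LinearAlgebra.FreeModule.PID
import Mathlib.Topology.ContinuousMap.Weierstrass
import Mathlib.Topology.MetricSpace.HausdorffDimension
import Vale.Agent.Lib.P095U.U1

/-!
# P095U, U3: paths in spheres avoid a point up to homotopy

`exists_smooth`: real and imaginary parts of the coordinates are approximated by polynomials
(`exists_polynomial_near_of_continuousOn`, extend `c` to `ℝ` by `Set.IccExtend` or `c ∘ Set.projIcc`), corrected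
at the endpoints: `p t - (1 - t) (p 0 - f 0) - t (p 1 - f 1)`.

`exists_avoid_line`: `(r, t) ↦ r • c t` is `C^1` from `ℝ × ℝ` to `κ → ℂ`, whose real dimension is
`2 card κ ≥ 4 > 2`: `ContDiff.dense_compl_range_of_finrank_lt_finrank`.

`exists_avoid`: `c'' = ` smooth approximation within a small `ε` (so that `c'' t ≠ 0` and `c'' t` is not a nonpositive
multiple of `c t`: e.g. `Re (c(t)* c''(t)) > 0`), `c' = nrm ∘ c''`, `ξ = -nrm ξ'` with `ξ'` from
`exists_avoid_line`.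
-/

open Matrix
open scoped unitInterval

namespace P095U

variable {κ : Type*} [Fintype κ] [DecidableEq κ]

private theorem U3_real {f : ℝ → ℝ} (hf : Continuous f) {ε : ℝ} (hε : 0 < ε) :
    ∃ g : ℝ → ℝ, ContDiff ℝ 1 g ∧ g 0 = f 0 ∧ g 1 = f 1 ∧
      ∀ t ∈ Set.Icc (0 : ℝ) 1, |g t - f t| < ε := by
  obtain ⟨p, hp⟩ := exists_polynomial_near_of_continuousOn 0 1 f hf.continuousOn (ε / 4)
    (by positivity)
  have h0 := hp 0 ⟨le_rfl, zero_le_one⟩
  have h1 := hp 1 ⟨zero_le_one, le_rfl⟩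
  refine ⟨fun t => p.eval t - (1 - t) * (p.eval 0 - f 0) - t * (p.eval 1 - f 1), ?_, ?_, ?_, ?_⟩
  · have hp' : ContDiff ℝ 1 fun t : ℝ => p.eval t := by
      have h := p.contDiff_aeval (𝕜 := ℝ) 1
      simpa only [Polynomial.coe_aeval_eq_eval] using h
    fun_prop
  · simp
  · simp
  · intro t ht
    have h2 := hp t ht
    rw [abs_lt] at h0 h1 h2 ⊢
    have a0 : 0 ≤ t := ht.1
    have a1 : 0 ≤ 1 - t := by linarith [ht.2]
    constructor <;> nlinarith

theorem exists_smooth (c : C(I, κ → ℂ)) {ε : ℝ} (hε : 0 < ε) :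
    ∃ c' : ℝ → κ → ℂ, ContDiff ℝ 1 c' ∧ c' 0 = c 0 ∧ c' 1 = c 1 ∧
      ∀ (t : I) (x : κ), ‖c' t x - c t x‖ < ε := by
  classical
  have hproj : Continuous fun t : ℝ => c (Set.projIcc 0 1 zero_le_one t) :=
    c.continuous.comp continuous_projIcc
  have hre : ∀ x, Continuous fun t : ℝ => (c (Set.projIcc 0 1 zero_le_one t) x).re := fun x =>
    Complex.continuous_re.comp ((continuous_apply x).comp hproj)
  have him : ∀ x, Continuous fun t : ℝ => (c (Set.projIcc 0 1 zero_le_one t) x).im := fun x =>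
    Complex.continuous_im.comp ((continuous_apply x).comp hproj)
  choose g hg1 hg2 hg3 hg4 using fun x => U3_real (hre x) (half_pos hε)
  choose k hk1 hk2 hk3 hk4 using fun x => U3_real (him x) (half_pos hε)
  have hp0 : Set.projIcc (0 : ℝ) 1 zero_le_one 0 = (0 : I) := Set.projIcc_left _
  have hp1 : Set.projIcc (0 : ℝ) 1 zero_le_one 1 = (1 : I) := Set.projIcc_right _
  refine ⟨fun t x => (g x t : ℂ) + (k x t : ℂ) * Complex.I, ?_, ?_, ?_, ?_⟩
  · refine contDiff_pi.2 fun x => ?_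
    have h1 : ContDiff ℝ 1 fun t : ℝ => ((g x t : ℝ) : ℂ) :=
      Complex.ofRealCLM.contDiff.comp (hg1 x)
    have h2 : ContDiff ℝ 1 fun t : ℝ => ((k x t : ℝ) : ℂ) :=
      Complex.ofRealCLM.contDiff.comp (hk1 x)
    exact h1.add (h2.mul contDiff_const)
  · funext x
    change (g x 0 : ℂ) + (k x 0 : ℂ) * Complex.I = c 0 x
    rw [hg2, hk2, hp0]
    exact Complex.re_add_im _
  · funext x
    change (g x 1 : ℂ) + (k x 1 : ℂ) * Complex.I = c 1 x
    rw [hg3, hk3, hp1]
    exact Complex.re_add_im _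
  · intro t x
    have h1 := hg4 x t ⟨t.2.1, t.2.2⟩
    have h2 := hk4 x t ⟨t.2.1, t.2.2⟩
    rw [Set.projIcc_val] at h1 h2
    change ‖(g x t : ℂ) + (k x t : ℂ) * Complex.I - c t x‖ < ε
    refine lt_of_le_of_lt (Complex.norm_le_abs_re_add_abs_im _) ?_
    have e1 : ((g x t : ℂ) + (k x t : ℂ) * Complex.I - c t x).re = g x t - (c t x).re := by
      simp
    have e2 : ((g x t : ℂ) + (k x t : ℂ) * Complex.I - c t x).im = k x t - (c t x).im := by
      simp
    rw [e1, e2]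
    linarith

theorem exists_avoid_line (h2 : 2 ≤ Fintype.card κ) (c : ℝ → κ → ℂ) (hc : ContDiff ℝ 1 c) :
    ∃ ξ : κ → ℂ, ∀ r t : ℝ, (r : ℂ) • c t ≠ ξ := by
  have hf : ContDiff ℝ 1 fun z : ℝ × ℝ => (z.1 : ℂ) • c z.2 := by
    have h1 : ContDiff ℝ 1 fun z : ℝ × ℝ => ((z.1 : ℝ) : ℂ) :=
      Complex.ofRealCLM.contDiff.comp contDiff_fst
    exact h1.smul (hc.comp contDiff_snd)
  have hrank : Module.finrank ℝ (ℝ × ℝ) < Module.finrank ℝ (κ → ℂ) := by
    rw [Module.finrank_prod, Module.finrank_self, Module.finrank_pi_fintype]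
    simp only [Complex.finrank_real_complex, Finset.sum_const, Finset.card_univ, smul_eq_mul]
    omega
  obtain ⟨ξ, hξ⟩ := (hf.dense_compl_range_of_finrank_lt_finrank hrank).nonempty
  exact ⟨ξ, fun r t h => hξ ⟨(r, t), h⟩⟩

theorem exists_avoid (h2 : 2 ≤ Fintype.card κ) (c : C(I, κ → ℂ))
    (hc : ∀ t, star (c t) ⬝ᵥ c t = 1) :
    ∃ (c' : C(I, κ → ℂ)) (ξ : κ → ℂ), (∀ t, star (c' t) ⬝ᵥ c' t = 1) ∧ c' 0 = c 0 ∧
      c' 1 = c 1 ∧ (∀ t, c' t ≠ -c t) ∧ star ξ ⬝ᵥ ξ = 1 ∧ ∀ t, c' t ≠ -ξ := by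
  classical
  have hcard : (0 : ℝ) < Fintype.card κ := by
    have : 0 < Fintype.card κ := by omega
    exact_mod_cast this
  -- a large coordinate
  have hlarge : ∀ t, ∃ x, 1 / (Fintype.card κ : ℝ) ≤ ‖c t x‖ := by
    intro t
    by_contra hcon
    push Not at hcon
    have h1 : ∀ x ∈ (Finset.univ : Finset κ), ‖c t x‖ ^ 2 < 1 / (Fintype.card κ : ℝ) := by
      intro x _
      have h2 := hcon x
      have h3 : 1 / (Fintype.card κ : ℝ) ≤ 1 := by
        rw [div_le_one hcard]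
        have : 1 ≤ Fintype.card κ := by omega
        exact_mod_cast this
      nlinarith [norm_nonneg (c t x)]
    have hne : (Finset.univ : Finset κ).Nonempty := by
      rw [Finset.univ_nonempty_iff]
      exact Fintype.card_pos_iff.1 (by omega)
    have h2 := Finset.sum_lt_sum_of_nonempty hne h1
    rw [Finset.sum_const, Finset.card_univ, nsmul_eq_mul, mul_one_div_cancel hcard.ne'] at h2
    have h3 := congrArg Complex.re (hc t)
    have h4 : (star (c t) ⬝ᵥ c t).re = ∑ x, ‖c t x‖ ^ 2 := by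
      unfold dotProduct
      rw [Complex.re_sum]
      refine Finset.sum_congr rfl fun x _ => ?_
      rw [Pi.star_apply, RCLike.star_def, ← Complex.normSq_eq_conj_mul_self, Complex.ofReal_re,
        Complex.normSq_eq_norm_sq]
    rw [h4, Complex.one_re] at h3
    linarith
  obtain ⟨c2, hd, h20, h21, hnear⟩ := exists_smooth c (ε := 1 / (Fintype.card κ : ℝ))
    (by positivity)
  -- `c2 t` is not a nonpositive multiple of `c t`
  have hkey : ∀ (t : I) (r : ℝ), 0 ≤ r → c2 t ≠ -((r : ℂ) • c t) := by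
    intro t r hr h
    obtain ⟨x, hx⟩ := hlarge t
    have h1 := hnear t x
    have h2 : c2 t x = -((r : ℂ) * c t x) := congrFun h x
    have h3 : c2 t x - c t x = -(((r + 1 : ℝ) : ℂ) * c t x) := by
      rw [h2]
      push_cast
      ring
    rw [h3, norm_neg, norm_mul, Complex.norm_real, Real.norm_of_nonneg (by linarith)] at h1
    nlinarith [norm_nonneg (c t x)]
  have hne : ∀ t : I, c2 t ≠ 0 := by
    intro t h
    apply hkey t 0 le_rfl
    rw [h, Complex.ofReal_zero, zero_smul, neg_zero]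
  obtain ⟨ξ, hξ⟩ := exists_avoid_line h2 c2 hd
  have hξ0 : ξ ≠ 0 := by
    intro h
    apply hξ 0 0
    rw [h, Complex.ofReal_zero, zero_smul]
  have hcont : Continuous fun t : I => nrm (c2 t) :=
    continuous_nrm (hd.continuous.comp continuous_subtype_val) hne
  have hs : ∀ y : κ → ℂ, y ≠ 0 → 0 < (Real.sqrt (star y ⬝ᵥ y).re)⁻¹ := by
    intro y hy
    have h1 := nrm_unit hy
    refine lt_of_le_of_ne (by positivity) fun h => ?_
    unfold nrm at h1
    have h2 : ((Real.sqrt (star y ⬝ᵥ y).re : ℝ) : ℂ)⁻¹ = 0 := by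
      rw [← Complex.ofReal_inv, ← h, Complex.ofReal_zero]
    rw [h2, zero_smul, star_zero, zero_dotProduct] at h1
    exact zero_ne_one h1
  refine ⟨⟨fun t => nrm (c2 t), hcont⟩, nrm ξ, fun t => nrm_unit (hne t), ?_, ?_, ?_,
    nrm_unit hξ0, ?_⟩
  · change nrm (c2 ((0 : I) : ℝ)) = c 0
    rw [Set.Icc.coe_zero, h20, nrm_of_unit (hc 0)]
  · change nrm (c2 ((1 : I) : ℝ)) = c 1
    rw [Set.Icc.coe_one, h21, nrm_of_unit (hc 1)]
  · intro t h
    have h1 : nrm (c2 t) = -c t := h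
    have hpos := hs (c2 t) (hne t)
    unfold nrm at h1
    apply hkey t ((Real.sqrt (star (c2 t) ⬝ᵥ c2 t).re)) (Real.sqrt_nonneg _)
    have hne0 : ((Real.sqrt (star (c2 t) ⬝ᵥ c2 t).re : ℝ) : ℂ) ≠ 0 := by
      rw [Complex.ofReal_ne_zero]
      exact (inv_pos.1 hpos).ne'
    have h3 := congrArg (fun y => ((Real.sqrt (star (c2 t) ⬝ᵥ c2 t).re : ℝ) : ℂ) • y) h1
    simp only [smul_smul, mul_inv_cancel₀ hne0, one_smul, smul_neg] at h3
    exact h3
  · intro t h
    have h1 : nrm (c2 t) = -nrm ξ := h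
    have hpos := hs ξ hξ0
    have hpos2 := hs (c2 t) (hne t)
    unfold nrm at h1
    have hne0 : ((Real.sqrt (star ξ ⬝ᵥ ξ).re : ℝ) : ℂ) ≠ 0 := by
      rw [Complex.ofReal_ne_zero]
      exact (inv_pos.1 hpos).ne'
    apply hξ (-(Real.sqrt (star ξ ⬝ᵥ ξ).re * (Real.sqrt (star (c2 t) ⬝ᵥ c2 t).re)⁻¹)) t
    have h3 := congrArg (fun y => -(((Real.sqrt (star ξ ⬝ᵥ ξ).re : ℝ) : ℂ) • y)) h1
    simp only [smul_smul, mul_inv_cancel₀ hne0, one_smul, smul_neg, neg_neg] at h3
    refine Eq.trans ?_ h3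
    rw [Complex.ofReal_neg, Complex.ofReal_mul, Complex.ofReal_inv, neg_smul]

end P095U
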