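import Vale.Agent.Lib.P095U.U1
import Vale.Agent.Lib.P095U.U2
import Vale.Agent.Lib.P095U.U3

/-!
# P095U, U4: a loop of unitaries is homotopic to one that fixes a basis vector

`loopV_null`: `H (s, t) = rot (c t) (c_s t)`, `c_s t = nrm ((1-s) c t + s c' t)`; `c_s t ≠ -c t` by `nrm_seg_ne`;
joins `1` (`s = 0`) to `rot (c t) (c' t)` (`s = 1`).

`loopW_null`: `c_s t = nrm ((1-s) c t + s ξ)`, `H (s, t) = rot ξ (c_s t) * rot (c_s 0) ξ`; `s = 0` gives the loop,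
`s = 1` gives `1`; at `t = 0, 1` it is `1` by `rot_mul_rot` (`c_s 1 = c_s 0`).  (`rot x y` needs `y ≠ -x`; note
`ξ ≠ -c_s 0` iff `c_s 0 ≠ -ξ`.)

`exists_fix`: `c t = v t *ᵥ e_x` (`e_x = Pi.single x 1`), a loop of unit vectors with `c 0 = c 1 = e_x`; `c'`, `ξ` from
`exists_avoid`; `v' = star W * V * v` with `W t = rot ξ (c' t) * rot e_x ξ`, `V t = rot (c t) (c' t)`.
-/

open Matrix
open scoped unitInterval

namespace P095U

variable {ι : Type*} [Fintype ι] [DecidableEq ι]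

theorem U4_const {x : ι → ℂ} (hx : star x ⬝ᵥ x = 1) (s : ℝ) :
    nrm (((1 - s : ℝ) : ℂ) • x + ((s : ℝ) : ℂ) • x) = x := by
  have h : ((1 - s : ℝ) : ℂ) • x + ((s : ℝ) : ℂ) • x = x := by
    rw [← add_smul, ← Complex.ofReal_add, sub_add_cancel, Complex.ofReal_one, one_smul]
  rw [h, nrm_of_unit hx]

/-- the normalized segments from `c t` to `c' t` -/
theorem U4_seg (c c' : C(I, ι → ℂ)) (hc : ∀ t, star (c t) ⬝ᵥ c t = 1)
    (hc' : ∀ t, star (c' t) ⬝ᵥ c' t = 1) (h : ∀ t, c' t ≠ -c t) :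
    ∃ d : C(I × I, ι → ℂ), (∀ p, star (d p) ⬝ᵥ d p = 1) ∧ (∀ t, d (0, t) = c t) ∧
      (∀ t, d (1, t) = c' t) ∧ (∀ s t, c' t = c t → d (s, t) = c t) ∧
      (∀ p : I × I, d p ≠ -c' p.2) ∧ (∀ p : I × I, d p ≠ -c p.2) ∧
      ∀ s t t', c t = c t' → c' t = c' t' → d (s, t) = d (s, t') := by
  have ha : Continuous fun p : I × I => ((p.1 : I) : ℝ) :=
    continuous_subtype_val.comp continuous_fst
  have hcs : Continuous fun p : I × I => nrm (((1 - ((p.1 : I) : ℝ) : ℝ) : ℂ) • c p.2 +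
      ((((p.1 : I) : ℝ) : ℝ) : ℂ) • c' p.2) := by
    refine continuous_nrm ?_ fun p => seg_ne_zero (hc p.2) (hc' p.2) (h p.2) _ p.1.2.1 p.1.2.2
    exact ((Complex.continuous_ofReal.comp (continuous_const.sub ha)).smul
      (c.continuous.comp continuous_snd)).add
      ((Complex.continuous_ofReal.comp ha).smul (c'.continuous.comp continuous_snd))
  refine ⟨⟨_, hcs⟩, fun p => nrm_unit (seg_ne_zero (hc p.2) (hc' p.2) (h p.2) _ p.1.2.1 p.1.2.2),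
    fun t => ?_, fun t => ?_, fun s t e => ?_,
    fun p => (nrm_seg_ne (hc p.2) (hc' p.2) (h p.2) _ p.1.2.1 p.1.2.2).1,
    fun p => (nrm_seg_ne (hc p.2) (hc' p.2) (h p.2) _ p.1.2.1 p.1.2.2).2,
    fun s t t' e e' => ?_⟩
  · change nrm (((1 - (0 : ℝ) : ℝ) : ℂ) • c t + ((0 : ℝ) : ℂ) • c' t) = c t
    rw [sub_zero, Complex.ofReal_one, Complex.ofReal_zero, one_smul, zero_smul, add_zero,
      nrm_of_unit (hc t)]
  · change nrm (((1 - (1 : ℝ) : ℝ) : ℂ) • c t + ((1 : ℝ) : ℂ) • c' t) = c' t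
    rw [sub_self, Complex.ofReal_one, Complex.ofReal_zero, one_smul, zero_smul, zero_add,
      nrm_of_unit (hc' t)]
  · change nrm (((1 - (s : ℝ) : ℝ) : ℂ) • c t + (((s : ℝ) : ℝ) : ℂ) • c' t) = c t
    rw [e, U4_const (hc t)]
  · change nrm (((1 - (s : ℝ) : ℝ) : ℂ) • c t + (((s : ℝ) : ℝ) : ℂ) • c' t) =
      nrm (((1 - (s : ℝ) : ℝ) : ℂ) • c t' + (((s : ℝ) : ℝ) : ℂ) • c' t')
    rw [e, e']

theorem loopV_null (c c' : C(I, ι → ℂ)) (hc : ∀ t, star (c t) ⬝ᵥ c t = 1)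
    (hc' : ∀ t, star (c' t) ⬝ᵥ c' t = 1) (h : ∀ t, c' t ≠ -c t) (h0 : c' 0 = c 0)
    (h1 : c' 1 = c 1) :
    ∃ V ∈ Om ι, JoinedIn (Om ι) 1 V ∧ ∀ t, V t *ᵥ c t = c' t := by
  have hV : Continuous fun t => rot (c t) (c' t) :=
    continuous_rot c.continuous c'.continuous hc hc' h
  obtain ⟨d, hd, hd0, hd1, hde, -, hdn, -⟩ := U4_seg c c' hc hc' h
  have hH : Continuous fun p : I × I => rot (c p.2) (d p) :=
    continuous_rot (c.continuous.comp continuous_snd) d.continuous (fun p => hc p.2) hd hdn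
  refine ⟨⟨fun t => rot (c t) (c' t), hV⟩, ⟨fun t => rot_mem_unitary (hc t) (hc' t) (h t), ?_, ?_⟩,
    joinedIn_of_homotopy (Om ι) ⟨fun p : I × I => rot (c p.2) (d p), hH⟩
      (fun s => ⟨fun t => ?_, ?_, ?_⟩) (fun t => ?_)
      (fun t => ?_), fun t => rot_mulVec (hc t) (hc' t) (h t)⟩
  · change rot (c 0) (c' 0) = 1
    rw [h0, rot_self (hc 0)]
  · change rot (c 1) (c' 1) = 1
    rw [h1, rot_self (hc 1)]
  · exact rot_mem_unitary (hc t) (hd (s, t)) (hdn (s, t))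
  · change rot (c 0) (d (s, 0)) = 1
    rw [hde s 0 h0, rot_self (hc 0)]
  · change rot (c 1) (d (s, 1)) = 1
    rw [hde s 1 h1, rot_self (hc 1)]
  · change rot (c t) (d (0, t)) = 1
    rw [hd0, rot_self (hc t)]
  · change rot (c t) (d (1, t)) = rot (c t) (c' t)
    rw [hd1]

theorem loopW_null (c : C(I, ι → ℂ)) (hc : ∀ t, star (c t) ⬝ᵥ c t = 1) (ξ : ι → ℂ)
    (hξ : star ξ ⬝ᵥ ξ = 1) (h : ∀ t, c t ≠ -ξ) (h01 : c 1 = c 0) :
    ∃ W ∈ Om ι, JoinedIn (Om ι) 1 W ∧ ∀ t, W t *ᵥ c 0 = c t := by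
  have h' : ∀ t, ξ ≠ -c t := fun t e => h t (by rw [e, neg_neg])
  have hW : Continuous fun t => rot ξ (c t) * rot (c 0) ξ :=
    (continuous_rot continuous_const c.continuous (fun _ => hξ) hc h).mul continuous_const
  obtain ⟨d, hd, hd0, hd1, -, hdn, -, hdt⟩ :=
    U4_seg c (ContinuousMap.const I ξ) hc (fun _ => hξ) h'
  have hn : ∀ p, d p ≠ -ξ := hdn
  have hn' : ∀ p, ξ ≠ -d p := fun p e => hn p (by rw [e, neg_neg])
  have hH : Continuous fun p : I × I => rot ξ (d p) * rot (d (p.1, 0)) ξ := by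
    refine Continuous.mul ?_ ?_
    · exact continuous_rot continuous_const d.continuous (fun _ => hξ) hd hn
    · exact continuous_rot (d.continuous.comp (continuous_fst.prodMk continuous_const))
        continuous_const (fun p => hd (p.1, 0)) (fun _ => hξ) (fun p => hn' (p.1, 0))
  have h10 : ∀ s, d (s, 1) = d (s, 0) := fun s => hdt s 1 0 h01 rfl
  refine ⟨⟨fun t => rot ξ (c t) * rot (c 0) ξ, hW⟩,
    ⟨fun t => mul_mem (rot_mem_unitary hξ (hc t) (h t)) (rot_mem_unitary (hc 0) hξ (h' 0)), ?_, ?_⟩,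
    (joinedIn_of_homotopy (Om ι) ⟨fun p : I × I => rot ξ (d p) * rot (d (p.1, 0)) ξ, hH⟩
      (fun s => ⟨fun t => ?_, ?_, ?_⟩) (fun t => ?_) (fun t => ?_)).symm, fun t => ?_⟩
  · change rot ξ (c 0) * rot (c 0) ξ = 1
    exact rot_mul_rot (hc 0) hξ (h' 0)
  · change rot ξ (c 1) * rot (c 0) ξ = 1
    rw [h01]
    exact rot_mul_rot (hc 0) hξ (h' 0)
  · exact mul_mem (rot_mem_unitary hξ (hd (s, t)) (hn (s, t)))
      (rot_mem_unitary (hd (s, 0)) hξ (hn' (s, 0)))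
  · change rot ξ (d (s, 0)) * rot (d (s, 0)) ξ = 1
    exact rot_mul_rot (hd (s, 0)) hξ (hn' (s, 0))
  · change rot ξ (d (s, 1)) * rot (d (s, 0)) ξ = 1
    rw [h10]
    exact rot_mul_rot (hd (s, 0)) hξ (hn' (s, 0))
  · change rot ξ (d (0, t)) * rot (d (0, 0)) ξ = rot ξ (c t) * rot (c 0) ξ
    rw [hd0, hd0]
  · change rot ξ (d (1, t)) * rot (d (1, 0)) ξ = 1
    rw [hd1, hd1]
    change rot ξ ξ * rot ξ ξ = 1
    rw [rot_self hξ, mul_one]
  · change (rot ξ (c t) * rot (c 0) ξ) *ᵥ c 0 = c t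
    rw [← mulVec_mulVec, rot_mulVec (hc 0) hξ (h' 0), rot_mulVec hξ (hc t) (h t)]

theorem exists_fix (h2 : 2 ≤ Fintype.card ι) (x : ι) (v : C(I, Matrix ι ι ℂ)) (hv : v ∈ Om ι) :
    ∃ v' ∈ Om ι, JoinedIn (Om ι) v v' ∧
      ∀ t, v' t *ᵥ Pi.single x (1 : ℂ) = Pi.single x (1 : ℂ) := by
  have hcc : Continuous fun t => v t *ᵥ Pi.single x (1 : ℂ) :=
    Continuous.matrix_mulVec v.continuous continuous_const
  have hstar : ∀ t, star (v t) * v t = 1 := fun t => (Unitary.mem_iff.1 (hv.1 t)).1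
  have hex : star (Pi.single x (1 : ℂ)) ⬝ᵥ (Pi.single x (1 : ℂ) : ι → ℂ) = 1 := by
    rw [dotProduct_single, Pi.star_apply, Pi.single_eq_same, star_one, one_mul]
  have hc : ∀ t, star (v t *ᵥ Pi.single x (1 : ℂ)) ⬝ᵥ (v t *ᵥ Pi.single x (1 : ℂ)) = 1 := by
    intro t
    rw [star_mulVec, ← dotProduct_mulVec, mulVec_mulVec]
    have e : (v t)ᴴ * v t = 1 := hstar t
    rw [e, one_mulVec, hex]
  have hc0 : v 0 *ᵥ Pi.single x (1 : ℂ) = Pi.single x (1 : ℂ) := by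
    rw [hv.2.1, one_mulVec]
  have hc1 : v 1 *ᵥ Pi.single x (1 : ℂ) = Pi.single x (1 : ℂ) := by
    rw [hv.2.2, one_mulVec]
  obtain ⟨c', ξ, hc', h0, h1, hne, hξ, hne'⟩ := exists_avoid h2 ⟨_, hcc⟩ hc
  obtain ⟨V, hV, hVj, hVc⟩ := loopV_null ⟨_, hcc⟩ c' hc hc' hne h0 h1
  have h01 : c' 1 = c' 0 := by
    rw [h0, h1]
    change v 1 *ᵥ Pi.single x (1 : ℂ) = v 0 *ᵥ Pi.single x (1 : ℂ)
    rw [hc0, hc1]
  have hc'0 : c' 0 = Pi.single x (1 : ℂ) := h0.trans hc0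
  obtain ⟨W, hW, hWj, hWc⟩ := loopW_null c' hc' ξ hξ hne' h01
  refine ⟨star W * V * v, mul_mem_Om (mul_mem_Om (star_mem_Om hW) hV) hv, ?_, fun t => ?_⟩
  · have hm : ∀ f ∈ Om ι, ∀ g ∈ Om ι, f * g ∈ Om ι := fun f hf g hg => mul_mem_Om hf hg
    have hs : ∀ f ∈ Om ι, star f ∈ Om ι := fun f hf => star_mem_Om hf
    have j1 := joinedIn_star hs hWj
    rw [star_one] at j1
    have j2 := joinedIn_mul hm (joinedIn_mul hm j1 hVj) (JoinedIn.refl hv)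
    rwa [one_mul, one_mul] at j2
  · change (star (W t) * V t * v t) *ᵥ Pi.single x (1 : ℂ) = Pi.single x (1 : ℂ)
    have e1 : V t *ᵥ (v t *ᵥ Pi.single x (1 : ℂ)) = c' t := hVc t
    rw [← mulVec_mulVec, ← mulVec_mulVec, e1, ← hWc t, mulVec_mulVec,
      (Unitary.mem_iff.1 (hW.1 t)).1, one_mulVec, hc'0]

end P095U
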