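import Mathlib.Analysis.SpecialFunctions.Complex.Circle
import Mathlib.Topology.Homotopy.Lifting
import Vale.Agent.Lib.P095U.U2

/-!
# P095U, U5: corners, reindexing, and loops in `U(1)`

`cor f t` is the matrix on `Option κ` with `1` at `(none, none)` and `f t` in the lower corner.

`exists_of_fix`: a unitary matrix with `v e_none = e_none` also has `v* e_none = e_none`, so its row and column
`none` are those of the identity.

`base`: `ι` with one element: `v t = diagonal (c t)`, `c t` a loop in the unit circle; `c` as a unitary of the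
C*-algebra `C(I, ℂ)` is joined to `1` in the unitary group by `s ↦ (t ↦ c (s t))`, so by
`Unitary.mem_pathComponentOne_iff` it is a product of `selfAdjoint.expUnitary`s, `c t = exp (i θ t)` with
`θ : C(I, ℝ)` (the sum of the list), `θ 0`, `θ 1` in `2 π ℤ`; subtract the constant `θ 0`: `θ 0 = 0`,
`θ 1 = 2 π k`; the homotopy is `exp (i ((1-s) θ t + s 2 π k t))`.  (Any other proof of the path lifting is fine:
Mathlib has covering maps for the circle.)
-/

open Matrix
open scoped unitInterval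

namespace P095U

/-- the corner embedding -/
noncomputable def cor {κ : Type*} [Fintype κ] [DecidableEq κ] (f : C(I, Matrix κ κ ℂ)) :
    C(I, Matrix (Option κ) (Option κ) ℂ) where
  toFun t := Matrix.of fun a b => a.elim (b.elim 1 fun _ => 0) fun i => b.elim 0 fun j => f t i j
  continuous_toFun := by
    refine continuous_matrix fun a b => ?_
    rcases a with _ | i <;> rcases b with _ | j
    · exact continuous_const
    · exact continuous_const
    · exact continuous_const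
    · exact (f.continuous.matrix_elem i j)

section Post

variable {ι κ : Type*} [Fintype ι] [DecidableEq ι] [Fintype κ] [DecidableEq κ]

theorem U5_mem (Φ : C(Matrix ι ι ℂ, Matrix κ κ ℂ)) (h1 : Φ 1 = 1)
    (hm : ∀ a b, Φ (a * b) = Φ a * Φ b) (hs : ∀ a, Φ (star a) = star (Φ a))
    {f : C(I, Matrix ι ι ℂ)} (hf : f ∈ Om ι) : Φ.comp f ∈ Om κ := by
  obtain ⟨hu, h0, h1'⟩ := hf
  refine ⟨fun t => ?_, ?_, ?_⟩
  · obtain ⟨ha, hb⟩ := Unitary.mem_iff.1 (hu t)
    refine Unitary.mem_iff.2 ⟨?_, ?_⟩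
    · rw [ContinuousMap.comp_apply, ← hs, ← hm, ha, h1]
    · rw [ContinuousMap.comp_apply, ← hs, ← hm, hb, h1]
  · rw [ContinuousMap.comp_apply, h0, h1]
  · rw [ContinuousMap.comp_apply, h1', h1]

theorem U5_join (Φ : C(Matrix ι ι ℂ, Matrix κ κ ℂ)) (h1 : Φ 1 = 1)
    (hm : ∀ a b, Φ (a * b) = Φ a * Φ b) (hs : ∀ a, Φ (star a) = star (Φ a))
    {f g : C(I, Matrix ι ι ℂ)} (h : JoinedIn (Om ι) f g) :
    JoinedIn (Om κ) (Φ.comp f) (Φ.comp g) := by
  obtain ⟨γ, hγ⟩ := h
  exact ⟨γ.map (ContinuousMap.continuous_postcomp Φ), fun t => U5_mem Φ h1 hm hs (hγ t)⟩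

end Post

section Corner

variable {κ : Type*} [Fintype κ] [DecidableEq κ]

/-- the corner embedding of matrices -/
def U5_c (m : Matrix κ κ ℂ) : Matrix (Option κ) (Option κ) ℂ :=
  Matrix.of fun a b => a.elim (b.elim 1 fun _ => 0) fun i => b.elim 0 fun j => m i j

omit [Fintype κ] [DecidableEq κ] in
theorem U5_c_nn (m : Matrix κ κ ℂ) : U5_c m none none = 1 := rfl

omit [Fintype κ] [DecidableEq κ] in
theorem U5_c_ns (m : Matrix κ κ ℂ) (j : κ) : U5_c m none (some j) = 0 := rfl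

omit [Fintype κ] [DecidableEq κ] in
theorem U5_c_sn (m : Matrix κ κ ℂ) (i : κ) : U5_c m (some i) none = 0 := rfl

omit [Fintype κ] [DecidableEq κ] in
theorem U5_c_ss (m : Matrix κ κ ℂ) (i j : κ) : U5_c m (some i) (some j) = m i j := rfl

omit [Fintype κ] in
theorem U5_c_one : U5_c (1 : Matrix κ κ ℂ) = 1 := by
  ext a b
  rcases a with _ | i <;> rcases b with _ | j
  · rw [U5_c_nn, Matrix.one_apply_eq]
  · rw [U5_c_ns, Matrix.one_apply_ne (by simp)]
  · rw [U5_c_sn, Matrix.one_apply_ne (by simp)]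
  · rw [U5_c_ss, Matrix.one_apply, Matrix.one_apply]
    simp

omit [DecidableEq κ] in
theorem U5_c_mul (m n : Matrix κ κ ℂ) : U5_c (m * n) = U5_c m * U5_c n := by
  ext a b
  rw [Matrix.mul_apply, Fintype.sum_option]
  rcases a with _ | i <;> rcases b with _ | j
  · simp [U5_c_nn, U5_c_ns]
  · simp [U5_c_nn, U5_c_ns]
  · simp [U5_c_nn, U5_c_sn]
  · simp [U5_c_ns, U5_c_sn, U5_c_ss, Matrix.mul_apply]

omit [Fintype κ] [DecidableEq κ] in
theorem U5_c_star (m : Matrix κ κ ℂ) : U5_c (star m) = star (U5_c m) := by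
  ext a b
  rw [Matrix.star_apply]
  rcases a with _ | i <;> rcases b with _ | j
  · simp [U5_c_nn]
  · simp [U5_c_ns, U5_c_sn]
  · simp [U5_c_ns, U5_c_sn]
  · simp [U5_c_ss, Matrix.star_apply]

omit [Fintype κ] [DecidableEq κ] in
theorem U5_c_inj {m n : Matrix κ κ ℂ} (h : U5_c m = U5_c n) : m = n := by
  ext i j
  rw [← U5_c_ss m i j, h, U5_c_ss]

omit [Fintype κ] [DecidableEq κ] in
theorem U5_c_cont : Continuous (U5_c : Matrix κ κ ℂ → Matrix (Option κ) (Option κ) ℂ) := by
  refine continuous_matrix fun a b => ?_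
  rcases a with _ | i <;> rcases b with _ | j
  · exact continuous_const
  · exact continuous_const
  · exact continuous_const
  · exact continuous_id.matrix_elem i j

/-- the corner embedding as a continuous map -/
def U5_C : C(Matrix κ κ ℂ, Matrix (Option κ) (Option κ) ℂ) := ⟨U5_c, U5_c_cont⟩

theorem U5_cor_eq (f : C(I, Matrix κ κ ℂ)) : cor f = U5_C.comp f := rfl

theorem cor_mem {f : C(I, Matrix κ κ ℂ)} (hf : f ∈ Om κ) : cor f ∈ Om (Option κ) := by
  rw [U5_cor_eq]
  exact U5_mem U5_C U5_c_one U5_c_mul U5_c_star hf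

theorem cor_joinedIn {f g : C(I, Matrix κ κ ℂ)} (h : JoinedIn (Om κ) f g) :
    JoinedIn (Om (Option κ)) (cor f) (cor g) := by
  rw [U5_cor_eq, U5_cor_eq]
  exact U5_join U5_C U5_c_one U5_c_mul U5_c_star h

theorem cor_dg (y : κ) (k : ℤ) : cor (dg (Pi.single y k)) = dg (Pi.single (some y) k) := by
  refine ContinuousMap.ext fun t => ?_
  show U5_c (dg (Pi.single y k) t) = dg (Pi.single (some y) k) t
  rw [dg_apply, dg_apply]
  ext a b
  rcases a with _ | i <;> rcases b with _ | j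
  · rw [U5_c_nn, Matrix.diagonal_apply_eq, Pi.single_eq_of_ne (by simp)]
    simp
  · rw [U5_c_ns, Matrix.diagonal_apply_ne _ (by simp)]
  · rw [U5_c_sn, Matrix.diagonal_apply_ne _ (by simp)]
  · rw [U5_c_ss]
    by_cases hij : i = j
    · subst hij
      rw [Matrix.diagonal_apply_eq, Matrix.diagonal_apply_eq]
      by_cases hiy : i = y
      · subst hiy
        rw [Pi.single_eq_same, Pi.single_eq_same]
      · rw [Pi.single_eq_of_ne hiy, Pi.single_eq_of_ne (by simpa using hiy)]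
    · rw [Matrix.diagonal_apply_ne _ hij, Matrix.diagonal_apply_ne _ (by simpa using hij)]

theorem U5_col {m : Matrix (Option κ) (Option κ) ℂ}
    (h : m *ᵥ Pi.single none (1 : ℂ) = Pi.single none (1 : ℂ)) (a : Option κ) :
    m a none = Pi.single (M := fun _ => ℂ) none (1 : ℂ) a := by
  rw [← h, Matrix.mulVec_single_one]
  rfl

theorem U5_fix {m : Matrix (Option κ) (Option κ) ℂ}
    (hm : m ∈ unitary (Matrix (Option κ) (Option κ) ℂ))
    (h : m *ᵥ Pi.single none (1 : ℂ) = Pi.single none (1 : ℂ)) :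
    m = U5_c (m.submatrix some some) := by
  have h2 : star m *ᵥ Pi.single none (1 : ℂ) = Pi.single none (1 : ℂ) := by
    nth_rewrite 1 [← h]
    rw [Matrix.mulVec_mulVec, (Unitary.mem_iff.1 hm).1, Matrix.one_mulVec]
  ext a b
  rcases a with _ | i <;> rcases b with _ | j
  · rw [U5_c_nn, U5_col h, Pi.single_eq_same]
  · rw [U5_c_ns]
    have h3 := U5_col h2 (some j)
    rw [Matrix.star_apply, Pi.single_eq_of_ne (by simp)] at h3
    exact star_eq_zero.1 h3
  · rw [U5_c_sn, U5_col h, Pi.single_eq_of_ne (by simp)]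
  · rw [U5_c_ss]
    rfl

theorem exists_of_fix (v : C(I, Matrix (Option κ) (Option κ) ℂ)) (hv : v ∈ Om (Option κ))
    (h : ∀ t, v t *ᵥ Pi.single none (1 : ℂ) = Pi.single none (1 : ℂ)) :
    ∃ f ∈ Om κ, v = cor f := by
  obtain ⟨hu, h0, h1⟩ := hv
  have hc : Continuous fun t => (v t).submatrix (some : κ → Option κ) some :=
    v.continuous.matrix_submatrix some some
  have hv' : ∀ t, v t = U5_c ((v t).submatrix some some) := fun t => U5_fix (hu t) (h t)
  refine ⟨⟨fun t => (v t).submatrix some some, hc⟩, ⟨fun t => ?_, ?_, ?_⟩, ?_⟩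
  · show (v t).submatrix some some ∈ unitary (Matrix κ κ ℂ)
    obtain ⟨ha, hb⟩ := Unitary.mem_iff.1 (hu t)
    refine Unitary.mem_iff.2 ⟨U5_c_inj ?_, U5_c_inj ?_⟩
    · rw [U5_c_mul, U5_c_star, ← hv' t, U5_c_one, ha]
    · rw [U5_c_mul, U5_c_star, ← hv' t, U5_c_one, hb]
  · show (v 0).submatrix some some = 1
    refine U5_c_inj ?_
    rw [← hv', U5_c_one, h0]
  · show (v 1).submatrix some some = 1
    refine U5_c_inj ?_
    rw [← hv', U5_c_one, h1]
  · refine ContinuousMap.ext fun t => ?_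
    exact hv' t

end Corner

theorem reindex_joinedIn {ι κ : Type*} [Fintype ι] [DecidableEq ι] [Fintype κ] [DecidableEq κ]
    (e : ι ≃ κ)
    (h : ∀ (x : ι) (v : C(I, Matrix ι ι ℂ)), v ∈ Om ι →
      ∃ k : ℤ, JoinedIn (Om ι) v (dg (Pi.single x k)))
    (x : κ) (v : C(I, Matrix κ κ ℂ)) (hv : v ∈ Om κ) :
    ∃ k : ℤ, JoinedIn (Om κ) v (dg (Pi.single x k)) := by
  let Φ : C(Matrix κ κ ℂ, Matrix ι ι ℂ) :=
    ⟨fun m => m.submatrix e e, continuous_id.matrix_submatrix e e⟩
  let Ψ : C(Matrix ι ι ℂ, Matrix κ κ ℂ) :=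
    ⟨fun m => m.submatrix e.symm e.symm, continuous_id.matrix_submatrix e.symm e.symm⟩
  obtain ⟨k, hk⟩ := h (e.symm x) (Φ.comp v) (U5_mem Φ (Matrix.submatrix_one_equiv e)
    (fun a b => (Matrix.submatrix_mul_equiv a b e e e).symm) (fun a => rfl) hv)
  refine ⟨k, ?_⟩
  have h2 := U5_join Ψ (Matrix.submatrix_one_equiv e.symm)
    (fun a b => (Matrix.submatrix_mul_equiv a b e.symm e.symm e.symm).symm) (fun a => rfl) hk
  have h3 : Ψ.comp (Φ.comp v) = v := by
    refine ContinuousMap.ext fun t => ?_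
    show ((v t).submatrix e e).submatrix e.symm e.symm = v t
    rw [Matrix.submatrix_submatrix]
    simp
  have h4 : Ψ.comp (dg (Pi.single (e.symm x) k)) = dg (Pi.single x k) := by
    refine ContinuousMap.ext fun t => ?_
    show (dg (Pi.single (e.symm x) k) t).submatrix e.symm e.symm = dg (Pi.single x k) t
    rw [dg_apply, dg_apply, Matrix.submatrix_diagonal_equiv]
    congr 1
    funext y
    show Complex.exp (2 * Real.pi * Complex.I *
      ((Pi.single (e.symm x) k : ι → ℤ) (e.symm y) : ℂ) * ((t : ℝ) : ℂ)) = _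
    have h5 : (Pi.single (e.symm x) k : ι → ℤ) (e.symm y) = (Pi.single x k : κ → ℤ) y := by
      by_cases hxy : y = x
      · subst hxy
        rw [Pi.single_eq_same, Pi.single_eq_same]
      · rw [Pi.single_eq_of_ne hxy, Pi.single_eq_of_ne (fun h => hxy (e.symm.injective h))]
    rw [h5]
  rwa [h3, h4] at h2

theorem U5_unit {ι : Type*} [Fintype ι] [DecidableEq ι] {x : ι} (hx : ∀ i : ι, i = x)
    {m : Matrix ι ι ℂ} (hm : m ∈ unitary (Matrix ι ι ℂ)) : ‖m x x‖ = 1 := by
  have h1 := congrFun (congrFun (Unitary.mem_iff.1 hm).1 x) x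
  rw [Matrix.mul_apply, Matrix.one_apply_eq] at h1
  have h2 : (Finset.univ : Finset ι) = {x} := by
    ext i
    simp [hx i]
  rw [h2, Finset.sum_singleton, Matrix.star_apply] at h1
  replace h1 : (starRingEnd ℂ) (m x x) * m x x = 1 := h1
  rw [← Complex.normSq_eq_conj_mul_self] at h1
  have h3 : Complex.normSq (m x x) = 1 := by exact_mod_cast h1
  rw [Complex.normSq_eq_norm_sq] at h3
  exact (pow_eq_one_iff_of_nonneg (norm_nonneg _) two_ne_zero).1 h3

theorem U5_diag {ι : Type*} [DecidableEq ι] {x : ι} (hx : ∀ i : ι, i = x)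
    (m : Matrix ι ι ℂ) : m = diagonal fun _ => m x x := by
  ext i j
  rw [hx i, hx j, Matrix.diagonal_apply_eq]

theorem U5_diag_unitary {ι : Type*} [Fintype ι] [DecidableEq ι] (a : ℝ) :
    (diagonal fun _ : ι => Complex.exp (a * Complex.I)) ∈ unitary (Matrix ι ι ℂ) := by
  have h1 : (starRingEnd ℂ) (Complex.exp (a * Complex.I)) * Complex.exp (a * Complex.I) = 1 := by
    rw [← Complex.normSq_eq_conj_mul_self, Complex.normSq_eq_norm_sq,
      Complex.norm_exp_ofReal_mul_I]
    simp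
  have h2 : star (diagonal fun _ : ι => Complex.exp (a * Complex.I)) =
      diagonal fun _ : ι => (starRingEnd ℂ) (Complex.exp (a * Complex.I)) := by
    rw [Matrix.star_eq_conjTranspose, Matrix.diagonal_conjTranspose]
    rfl
  refine Unitary.mem_iff.2 ⟨?_, ?_⟩
  · rw [h2, Matrix.diagonal_mul_diagonal, h1, Matrix.diagonal_one]
  · rw [h2, Matrix.diagonal_mul_diagonal, mul_comm, h1, Matrix.diagonal_one]

theorem base {ι : Type*} [Fintype ι] [DecidableEq ι] (h1 : Fintype.card ι = 1) (x : ι)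
    (v : C(I, Matrix ι ι ℂ)) (hv : v ∈ Om ι) :
    ∃ k : ℤ, JoinedIn (Om ι) v (dg (Pi.single x k)) := by
  obtain ⟨x', hx'⟩ := Fintype.card_eq_one_iff.1 h1
  have hx : ∀ i : ι, i = x := fun i => (hx' i).trans (hx' x).symm
  obtain ⟨hu, h0, h1'⟩ := hv
  have hz0 : ((0 : I) : ℝ) = 0 := rfl
  have ho1 : ((1 : I) : ℝ) = 1 := rfl
  let c : C(I, Circle) := ⟨fun t => ⟨v t x x, mem_sphere_zero_iff_norm.2 (U5_unit hx (hu t))⟩,
    (v.continuous.matrix_elem x x).subtype_mk _⟩
  have hc0 : c 0 = Circle.exp 0 := by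
    rw [Circle.exp_zero]
    refine Subtype.ext ?_
    show v 0 x x = 1
    rw [h0, Matrix.one_apply_eq]
  have hlift := Circle.isCoveringMap_exp.liftPath_lifts c 0 hc0
  have hzero := Circle.isCoveringMap_exp.liftPath_zero c 0 hc0
  set θ := Circle.isCoveringMap_exp.liftPath c 0 hc0 with hθ
  have hvθ : ∀ t, v t x x = Complex.exp (θ t * Complex.I) := fun t => by
    have h2 : Circle.exp (θ t) = c t := congrFun hlift t
    have h3 : ((Circle.exp (θ t) : Circle) : ℂ) = v t x x := congrArg Subtype.val h2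
    rw [← h3, Circle.coe_exp]
  have hθ1 : Complex.exp (θ 1 * Complex.I) = 1 := by
    rw [← hvθ, h1', Matrix.one_apply_eq]
  obtain ⟨k, hk⟩ := Complex.exp_eq_one_iff.1 hθ1
  have hk' : θ 1 = 2 * Real.pi * k := by
    have h2 : (θ 1 : ℂ) = 2 * Real.pi * k := by
      have h3 : (θ 1 : ℂ) * Complex.I = (2 * Real.pi * k) * Complex.I := by
        rw [hk]
        ring
      exact mul_right_cancel₀ Complex.I_ne_zero h3
    exact_mod_cast h2
  refine ⟨k, joinedIn_of_homotopy (Om ι) ⟨fun p => diagonal fun _ =>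
    Complex.exp (((((1 - (p.1 : ℝ)) * θ p.2 + (p.1 : ℝ) * (2 * Real.pi * k * (p.2 : ℝ)) : ℝ)) : ℂ) *
      Complex.I), by fun_prop⟩ ?_ ?_ ?_⟩
  · intro s
    refine ⟨fun t => U5_diag_unitary _, ?_, ?_⟩
    · show (diagonal fun _ : ι => Complex.exp
        (((((1 - (s : ℝ)) * θ 0 + (s : ℝ) * (2 * Real.pi * k * ((0 : I) : ℝ)) : ℝ)) : ℂ) *
        Complex.I)) = 1
      rw [hzero, hz0, mul_zero, mul_zero, mul_zero, add_zero,
        Complex.ofReal_zero, zero_mul, Complex.exp_zero, Matrix.diagonal_one]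
    · show (diagonal fun _ : ι => Complex.exp
        (((((1 - (s : ℝ)) * θ 1 + (s : ℝ) * (2 * Real.pi * k * ((1 : I) : ℝ)) : ℝ)) : ℂ) *
        Complex.I)) = 1
      have h2 : (1 - (s : ℝ)) * θ 1 + (s : ℝ) * (2 * Real.pi * k * ((1 : I) : ℝ)) = θ 1 := by
        rw [hk', ho1]
        ring
      rw [h2, hθ1, Matrix.diagonal_one]
  · intro t
    show (diagonal fun _ : ι => Complex.exp
      (((((1 - ((0 : I) : ℝ)) * θ t + ((0 : I) : ℝ) * (2 * Real.pi * k * (t : ℝ)) : ℝ)) : ℂ) *
      Complex.I)) = v t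
    have h2 : (1 - ((0 : I) : ℝ)) * θ t + ((0 : I) : ℝ) * (2 * Real.pi * k * (t : ℝ)) = θ t := by
      rw [hz0]
      ring
    rw [h2, ← hvθ t]
    exact (U5_diag hx (v t)).symm
  · intro t
    show (diagonal fun _ : ι => Complex.exp
      (((((1 - ((1 : I) : ℝ)) * θ t + ((1 : I) : ℝ) * (2 * Real.pi * k * (t : ℝ)) : ℝ)) : ℂ) *
      Complex.I)) = dg (Pi.single x k) t
    rw [dg_apply]
    congr 1
    funext i
    rw [hx i, Pi.single_eq_same, ho1]
    congr 1
    push_cast
    ring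

end P095U
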