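import Vale.Agent.Lib.P095U.U1
import Vale.Agent.Lib.P095U.U2

/-!
# P095U, U6: diagonal loops

`dg_single_joined`: for `x ≠ y`, `ξ_s = cos(π s/2) e_x + sin(π s/2) e_y`,
`H (s, t) = 1 + (exp(2 π i k t) - 1) • rk ξ_s ξ_s`.

`dg_joined`: `k = ∑ y, Pi.single y (k y)`, `dg` of a sum is the product (`Finset.induction_on` over the support set:
prove for every finset `s` that `dg (∑ y ∈ s, Pi.single y (k y))` is joined to `dg (Pi.single x (∑ y ∈ s, k y))`),
`joinedIn_mul`, `dg_add`.
-/

open Matrix
open scoped unitInterval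

namespace P095U

variable {ι : Type*} [Fintype ι] [DecidableEq ι]

/-- the unitary `1 + (z - 1) ξ ξ*` -/
theorem U6_mem {ξ : ι → ℂ} (hξ : star ξ ⬝ᵥ ξ = 1) {z : ℂ} (hz : star z * z = 1) :
    (1 + (z - 1) • rk ξ ξ : Matrix ι ι ℂ) ∈ unitary (Matrix ι ι ℂ) := by
  have hP : rk ξ ξ * rk ξ ξ = rk ξ ξ := by
    rw [rk, vecMulVec_mul_vecMulVec, hξ, one_smul]
  have hS : star (rk ξ ξ) = rk ξ ξ := by
    rw [rk, star_eq_conjTranspose, conjTranspose_vecMulVec, star_star]
  have hz' : z * star z = 1 := by rw [mul_comm]; exact hz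
  rw [Unitary.mem_iff]
  have e : star (1 + (z - 1) • rk ξ ξ : Matrix ι ι ℂ) = 1 + (star z - 1) • rk ξ ξ := by
    rw [star_add, star_one, star_smul, hS, star_sub, star_one]
  rw [e]
  constructor
  · rw [add_mul, one_mul, mul_add, mul_one, smul_mul_smul_comm, hP, add_assoc, ← add_smul,
      ← add_smul, show (z - 1) + ((star z - 1) + (star z - 1) * (z - 1)) = 0 by
        linear_combination hz, zero_smul, add_zero]
  · rw [add_mul, one_mul, mul_add, mul_one, smul_mul_smul_comm, hP, add_assoc, ← add_smul,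
      ← add_smul, show (star z - 1) + ((z - 1) + (z - 1) * (star z - 1)) = 0 by
        linear_combination hz', zero_smul, add_zero]

/-- the moving unit vector -/
noncomputable def U6_xi (x y : ι) (s : ℝ) : ι → ℂ := fun i =>
  if i = x then ((Real.cos (Real.pi * s / 2) : ℝ) : ℂ)
  else if i = y then ((Real.sin (Real.pi * s / 2) : ℝ) : ℂ) else 0

theorem U6_xi_unit {x y : ι} (hxy : x ≠ y) (s : ℝ) :
    star (U6_xi x y s) ⬝ᵥ U6_xi x y s = 1 := by
  have h1 : ∀ i, star (U6_xi x y s i) * U6_xi x y s i =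
      (if i = x then (((Real.cos (Real.pi * s / 2)) ^ 2 : ℝ) : ℂ) else 0) +
      (if i = y then (((Real.sin (Real.pi * s / 2)) ^ 2 : ℝ) : ℂ) else 0) := by
    intro i
    unfold U6_xi
    by_cases h : i = x
    · have h' : i ≠ y := fun e => hxy (h.symm.trans e)
      simp only [h, if_true, hxy, if_false, add_zero]
      rw [Complex.star_def, Complex.conj_ofReal]
      push_cast
      ring
    · by_cases h' : i = y
      · subst h'
        simp only [h, if_true, if_false, zero_add]
        rw [Complex.star_def, Complex.conj_ofReal]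
        push_cast
        ring
      · simp [h, h']
  rw [dotProduct, Finset.sum_congr rfl fun i _ => by rw [Pi.star_apply, h1 i],
    Finset.sum_add_distrib, Finset.sum_ite_eq', Finset.sum_ite_eq']
  simp only [Finset.mem_univ, if_true]
  rw [← Complex.ofReal_add, Real.cos_sq_add_sin_sq, Complex.ofReal_one]

omit [Fintype ι] in
theorem U6_continuous_xi (x y : ι) : Continuous (U6_xi x y) := by
  refine continuous_pi fun i => ?_
  unfold U6_xi
  by_cases h : i = x
  · simp only [h, if_true]
    fun_prop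
  · by_cases h' : i = y
    · simp only [h', if_true]
      split_ifs <;> fun_prop
    · simp only [h, h', if_false]
      exact continuous_const

/-- the phase -/
noncomputable def U6_ph (k : ℤ) (t : ℝ) : ℂ := Complex.exp (2 * Real.pi * Complex.I * (k : ℂ) * (t : ℂ))

theorem U6_ph_unit (k : ℤ) (t : ℝ) : star (U6_ph k t) * U6_ph k t = 1 := by
  rw [U6_ph, Complex.star_def, ← Complex.exp_conj, ← Complex.exp_add]
  rw [Complex.exp_eq_one_iff]
  refine ⟨0, ?_⟩
  have h2 : (starRingEnd ℂ) 2 = 2 := Complex.conj_ofNat 2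
  simp [h2]

theorem U6_dg_single (x : ι) (k : ℤ) (ξ : ι → ℂ) (hξ : ∀ i, ξ i = if i = x then 1 else 0) (t : I) :
    dg (Pi.single x k) t = 1 + (U6_ph k t - 1) • rk ξ ξ := by
  rw [dg_apply]
  ext i j
  rw [diagonal_apply, Matrix.add_apply, Matrix.smul_apply, rk, vecMulVec_apply, Pi.star_apply,
    hξ, hξ, Matrix.one_apply, smul_eq_mul, U6_ph]
  by_cases h : i = j
  · subst h
    by_cases h' : i = x
    · subst h'
      simp
    · simp [h']
  · by_cases h' : i = x
    · have h2 : j ≠ x := fun e => h (h'.trans e.symm)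
      simp [h, h2]
    · simp [h, h']


theorem dg_single_joined (x y : ι) (k : ℤ) :
    JoinedIn (Om ι) (dg (Pi.single x k)) (dg (Pi.single y k)) := by
  by_cases hxy : x = y
  · subst hxy
    exact JoinedIn.refl (dg_mem _)
  have hc : Continuous fun p : I × I => (1 + (U6_ph k (p.2 : ℝ) - 1) •
      rk (U6_xi x y (p.1 : ℝ)) (U6_xi x y (p.1 : ℝ)) : Matrix ι ι ℂ) := by
    have h1 : Continuous fun p : I × I => U6_xi x y (p.1 : ℝ) :=
      (U6_continuous_xi x y).comp (continuous_subtype_val.comp continuous_fst)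
    have h2 : Continuous fun p : I × I => rk (U6_xi x y (p.1 : ℝ)) (U6_xi x y (p.1 : ℝ)) := by
      refine continuous_matrix fun i j => ?_
      simp only [rk, vecMulVec_apply, Pi.star_apply]
      exact ((continuous_apply i).comp h1).mul (((continuous_apply j).comp h1).star)
    have h3 : Continuous fun p : I × I => (U6_ph k (p.2 : ℝ) - 1 : ℂ) := by
      unfold U6_ph
      fun_prop
    exact continuous_const.add (h3.smul h2)
  refine joinedIn_of_homotopy (Om ι) ⟨_, hc⟩ (fun s => ⟨fun t => ?_, ?_, ?_⟩) (fun t => ?_)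
    (fun t => ?_)
  · exact U6_mem (U6_xi_unit hxy s) (U6_ph_unit k t)
  · simp [U6_ph]
  · have h1 : U6_ph k 1 = 1 := by
      rw [U6_ph, Complex.exp_eq_one_iff]
      exact ⟨k, by push_cast; ring⟩
    simp [h1]
  · refine (U6_dg_single x k _ (fun i => ?_) t).symm
    simp [U6_xi]
  · refine (U6_dg_single y k _ (fun i => ?_) t).symm
    by_cases h : i = x
    · subst h
      simp [U6_xi, hxy]
    · simp [U6_xi, h]

theorem dg_joined (x : ι) (k : ι → ℤ) :
    JoinedIn (Om ι) (dg k) (dg (Pi.single x (∑ y, k y))) := by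
  have key : ∀ s : Finset ι, JoinedIn (Om ι) (dg (∑ y ∈ s, Pi.single y (k y)))
      (dg (Pi.single x (∑ y ∈ s, k y))) := by
    intro s
    induction s using Finset.induction_on with
    | empty =>
      rw [Finset.sum_empty, Finset.sum_empty, Pi.single_zero]
      exact JoinedIn.refl (dg_mem 0)
    | insert a s ha ih =>
      rw [Finset.sum_insert ha, Finset.sum_insert ha, Pi.single_add, dg_add, dg_add]
      exact joinedIn_mul (fun f hf g hg => mul_mem_Om hf hg) (dg_single_joined a x (k a)) ih
  have h := key Finset.univ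
  rwa [Finset.univ_sum_single] at h

end P095U
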