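import Mathlib.Algebra.Order.Ring.Star
import Mathlib.Analysis.CStarAlgebra.Matrix
import Mathlib.Analysis.CStarAlgebra.Unitary.Connected
import Mathlib.Analysis.Real.Pi.Bounds
import Mathlib.Data.Int.Star
import Mathlib.LinearAlgebra.Eigenspace.Minpoly
import Vale.Agent.Lib.P095U.U2

/-!
# P095U, U7: unitaries of dimension drop algebras, preparations
-/

open Matrix
open scoped unitInterval

namespace P095U

theorem U7_joined_of_lt {ι : Type*} [Fintype ι] [DecidableEq ι] (a : Matrix ι ι ℂ)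
    (ha : a ∈ unitary (Matrix ι ι ℂ)) (h : -1 ∉ spectrum ℂ a) :
    Joined (1 : unitary (Matrix ι ι ℂ)) ⟨a, ha⟩ := by
  open scoped Matrix.Norms.L2Operator in
  exact Unitary.joined _ _ ((Unitary.norm_sub_one_lt_two_iff ha).mpr h)

theorem U7_exists_rot {ι : Type*} [Fintype ι] [DecidableEq ι] (a : Matrix ι ι ℂ) :
    ∃ θ : ℝ, -1 ∉ spectrum ℂ (Complex.exp (θ * Complex.I) • a) := by
  by_contra hcon
  push Not at hcon
  have hinj : Set.InjOn (fun θ : ℝ => -Complex.exp (-(θ * Complex.I))) (Set.Icc 0 1) := by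
    intro s hs t ht hst
    have h1 : Complex.exp (-(s * Complex.I)) = Complex.exp (-(t * Complex.I)) := neg_injective hst
    rw [Complex.exp_eq_exp_iff_exists_int] at h1
    obtain ⟨n, hn⟩ := h1
    have h2 : (-(s : ℂ)) = -t + n * (2 * Real.pi) := by
      have h3 : (-(s : ℂ)) * Complex.I = (-t + n * (2 * Real.pi)) * Complex.I := by
        linear_combination hn
      exact mul_right_cancel₀ Complex.I_ne_zero h3
    have h4 : -s = -t + n * (2 * Real.pi) := by exact_mod_cast h2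
    have h5 : n = 0 := by
      have hpi := Real.pi_gt_three
      have h6 : |(n : ℝ)| * (2 * Real.pi) ≤ 1 := by
        have h7 : (n : ℝ) * (2 * Real.pi) = t - s := by linarith
        have h8 : |(n : ℝ) * (2 * Real.pi)| ≤ 1 := by
          rw [h7, abs_le]
          constructor <;> linarith [hs.1, hs.2, ht.1, ht.2]
        rwa [abs_mul, abs_of_pos (by positivity : (0 : ℝ) < 2 * Real.pi)] at h8
      by_contra hn0
      have h9 : (1 : ℝ) ≤ |(n : ℝ)| := by
        exact_mod_cast Int.one_le_abs hn0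
      nlinarith
    rw [h5] at h4
    simp at h4
    linarith
  have hinf : ((fun θ : ℝ => -Complex.exp (-(θ * Complex.I))) '' (Set.Icc 0 1)).Infinite :=
    (Set.Icc_infinite (by norm_num : (0 : ℝ) < 1)).image hinj
  refine hinf ((Matrix.finite_spectrum a).subset ?_)
  rintro _ ⟨θ, -, rfl⟩
  have h := hcon θ
  have hu : Complex.exp (θ * Complex.I) ≠ 0 := Complex.exp_ne_zero _
  have h2 := spectrum.unit_smul_eq_smul a (Units.mk0 _ hu)
  have h3 : (Units.mk0 _ hu : ℂˣ) • a = Complex.exp (θ * Complex.I) • a := rfl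
  rw [← h3, h2] at h
  rw [Set.mem_smul_set] at h
  obtain ⟨z, hz, hz2⟩ := h
  have h4 : Complex.exp (θ * Complex.I) * z = -1 := hz2
  have h5 : z = -Complex.exp (-(θ * Complex.I)) := by
    rw [Complex.exp_neg]
    field_simp
    rw [mul_comm]
    exact h4
  simpa [← h5] using hz

theorem U7_smul_mem {ι : Type*} [Fintype ι] [DecidableEq ι] {a : Matrix ι ι ℂ}
    (ha : a ∈ unitary (Matrix ι ι ℂ)) (θ : ℝ) :
    Complex.exp (θ * Complex.I) • a ∈ unitary (Matrix ι ι ℂ) := by
  have h1 : star (Complex.exp (θ * Complex.I)) * Complex.exp (θ * Complex.I) = 1 := by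
    rw [Complex.star_def, ← Complex.exp_conj, ← Complex.exp_add]
    simp
  rw [Unitary.mem_iff] at ha ⊢
  rw [star_smul, smul_mul_smul_comm, smul_mul_smul_comm, ha.1, ha.2, h1, mul_comm, h1, one_smul]
  exact ⟨rfl, rfl⟩

/-- unitary groups of matrix algebras are path connected.  (A unitary matrix is normal with finite
spectrum: `a = cfc id a`, and `s ↦ cfc (fun z => exp (i s arg z)) a` or `exp (i s h)`,
`h = cfc (fun z => (arg z : ℂ)) a`, is a path from `1` to `a`; every function is continuous on the finite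
spectrum.  Use `open scoped Matrix.Norms.L2Operator` for the C*-algebra structure, or any other proof, e.g. induction with
the rotations of U1, or the diagonalization of normal matrices.) -/
theorem unitary_joined {ι : Type*} [Fintype ι] [DecidableEq ι] (a : Matrix ι ι ℂ)
    (ha : a ∈ unitary (Matrix ι ι ℂ)) : JoinedIn (unitary (Matrix ι ι ℂ) : Set (Matrix ι ι ℂ)) 1 a := by
  obtain ⟨θ, hθ⟩ := U7_exists_rot a
  have h1 := U7_joined_of_lt _ (U7_smul_mem ha θ) hθ
  have h2 : JoinedIn (unitary (Matrix ι ι ℂ) : Set (Matrix ι ι ℂ)) 1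
      (Complex.exp (θ * Complex.I) • a) := by
    obtain ⟨γ⟩ := h1
    exact ⟨⟨⟨fun t => (γ t : Matrix ι ι ℂ), continuous_subtype_val.comp γ.continuous⟩,
      by simp, by simp⟩, fun t => (γ t).2⟩
  refine h2.trans (JoinedIn.symm ?_)
  refine ⟨⟨⟨fun t => Complex.exp (((t : ℝ) * θ : ℝ) * Complex.I) • a, by fun_prop⟩, ?_, ?_⟩,
    fun t => U7_smul_mem ha _⟩
  · simp
  · simp

/-- Kronecker products of unitary matrices are unitary -/
theorem kronecker_mem {p q : ℕ} {a : Matrix (Fin p) (Fin p) ℂ} {b : Matrix (Fin q) (Fin q) ℂ}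
    (ha : a ∈ unitary (Matrix (Fin p) (Fin p) ℂ)) (hb : b ∈ unitary (Matrix (Fin q) (Fin q) ℂ)) :
    kroneckerMap (· * ·) a b ∈ unitary (Matrix (Fin p × Fin q) (Fin p × Fin q) ℂ) := by
  exact kronecker_mem_unitary ha hb

theorem of_kronecker_one {p q : ℕ} (hq : 1 ≤ q) {a : Matrix (Fin p) (Fin p) ℂ}
    (h : kroneckerMap (· * ·) a (1 : Matrix (Fin q) (Fin q) ℂ) ∈
      unitary (Matrix (Fin p × Fin q) (Fin p × Fin q) ℂ)) : a ∈ unitary (Matrix (Fin p) (Fin p) ℂ) := by
  have key : ∀ c : Matrix (Fin p) (Fin p) ℂ,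
      kroneckerMap (· * ·) c (1 : Matrix (Fin q) (Fin q) ℂ) = 1 → c = 1 := by
    intro c hc
    ext i j
    have h2 := congrFun (congrFun hc (i, ⟨0, hq⟩)) (j, ⟨0, hq⟩)
    rw [kroneckerMap_apply, one_apply_eq, mul_one] at h2
    rw [h2]
    by_cases hij : i = j
    · subst hij
      simp
    · rw [one_apply_ne hij, one_apply_ne (fun h3 => hij (congrArg Prod.fst h3))]
  have hs : star (kroneckerMap (· * ·) a (1 : Matrix (Fin q) (Fin q) ℂ)) =
      kroneckerMap (· * ·) (star a) (1 : Matrix (Fin q) (Fin q) ℂ) := by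
    have h3 := conjTranspose_kronecker a (1 : Matrix (Fin q) (Fin q) ℂ)
    rw [conjTranspose_one] at h3
    exact h3
  have hm : ∀ c d : Matrix (Fin p) (Fin p) ℂ,
      kroneckerMap (· * ·) c (1 : Matrix (Fin q) (Fin q) ℂ) *
        kroneckerMap (· * ·) d (1 : Matrix (Fin q) (Fin q) ℂ) =
      kroneckerMap (· * ·) (c * d) (1 : Matrix (Fin q) (Fin q) ℂ) := by
    intro c d
    have h3 := mul_kronecker_mul c d (1 : Matrix (Fin q) (Fin q) ℂ) (1 : Matrix (Fin q) (Fin q) ℂ)
    rw [one_mul] at h3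
    exact h3.symm
  rw [Unitary.mem_iff] at h ⊢
  rw [hs, hm, hm] at h
  exact ⟨key _ h.1, key _ h.2⟩

theorem of_one_kronecker {p q : ℕ} (hp : 1 ≤ p) {b : Matrix (Fin q) (Fin q) ℂ}
    (h : kroneckerMap (· * ·) (1 : Matrix (Fin p) (Fin p) ℂ) b ∈
      unitary (Matrix (Fin p × Fin q) (Fin p × Fin q) ℂ)) : b ∈ unitary (Matrix (Fin q) (Fin q) ℂ) := by
  have key : ∀ c : Matrix (Fin q) (Fin q) ℂ,
      kroneckerMap (· * ·) (1 : Matrix (Fin p) (Fin p) ℂ) c = 1 → c = 1 := by
    intro c hc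
    ext i j
    have h2 := congrFun (congrFun hc (⟨0, hp⟩, i)) (⟨0, hp⟩, j)
    rw [kroneckerMap_apply, one_apply_eq, one_mul] at h2
    rw [h2]
    by_cases hij : i = j
    · subst hij
      simp
    · rw [one_apply_ne hij, one_apply_ne (fun h3 => hij (congrArg Prod.snd h3))]
  have hs : star (kroneckerMap (· * ·) (1 : Matrix (Fin p) (Fin p) ℂ) b) =
      kroneckerMap (· * ·) (1 : Matrix (Fin p) (Fin p) ℂ) (star b) := by
    have h3 := conjTranspose_kronecker (1 : Matrix (Fin p) (Fin p) ℂ) b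
    rw [conjTranspose_one] at h3
    exact h3
  have hm : ∀ c d : Matrix (Fin q) (Fin q) ℂ,
      kroneckerMap (· * ·) (1 : Matrix (Fin p) (Fin p) ℂ) c *
        kroneckerMap (· * ·) (1 : Matrix (Fin p) (Fin p) ℂ) d =
      kroneckerMap (· * ·) (1 : Matrix (Fin p) (Fin p) ℂ) (c * d) := by
    intro c d
    have h3 := mul_kronecker_mul (1 : Matrix (Fin p) (Fin p) ℂ) (1 : Matrix (Fin p) (Fin p) ℂ) c d
    rw [one_mul] at h3
    exact h3.symm
  rw [Unitary.mem_iff] at h ⊢
  rw [hs, hm, hm] at h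
  exact ⟨key _ h.1, key _ h.2⟩

/-- coefficients of the diagonal loops: `l p - m q = 1` -/
theorem exists_coeff {p q : ℕ} (hp : 1 ≤ p) (hq : 1 ≤ q) (hpq : Nat.Coprime p q) :
    ∃ l m : ℤ, l * p - m * q = 1 ∧
      ∑ x : Fin p × Fin q, ((if (x.2 : ℕ) = 0 then l else 0) - (if (x.1 : ℕ) = 0 then m else 0)) = 1 := by
  have h1 : IsCoprime (p : ℤ) (q : ℤ) := Nat.isCoprime_iff_coprime.mpr hpq
  obtain ⟨u, v, huv⟩ := h1
  refine ⟨u, -v, by linarith, ?_⟩
  have e1 : ∀ (n : ℕ) (hn : 1 ≤ n) (c : ℤ), ∑ i : Fin n, (if (i : ℕ) = 0 then c else 0) = c := by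
    intro n hn c
    rw [Finset.sum_eq_single (⟨0, hn⟩ : Fin n)]
    · simp
    · intro i _ hi
      rw [if_neg]
      intro h0
      exact hi (Fin.ext h0)
    · simp
  rw [Finset.sum_sub_distrib, Fintype.sum_prod_type, Fintype.sum_prod_type_right]
  simp only [e1 q hq, e1 p hp]
  simp only [Finset.sum_const, Finset.card_univ, Fintype.card_fin, nsmul_eq_mul]
  linarith

end P095U
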