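import Vale.Agent.Lib.P101.Stmt
import Vale.Agent.Lib.P095U.U7

/-!
# P095U, U7b: the ends of a unitary of a dimension drop algebra

`UD p q` is the set of the unitary valued elements of `dimDrop p q`.

`exists_end`: `f 0 = a ⊗ 1`, `f 1 = 1 ⊗ b` with `a`, `b` unitary (`of_kronecker_one`, `of_one_kronecker`), paths `A`, `B`
in the unitary groups from `1` to `star a`, `star b` (`unitary_joined`); the path
`s ↦ (t ↦ f t * (A(s(1-t)) ⊗ B(s t)))` in `UD p q` joins `f` to an element of `Om`.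

`diag_end`: path `s ↦ diagonal (fun x => exp (2 π i s k ((1-t) m [x.1=0] + t l [x.2=0])))` in `UD p q` from `1` to
`dg (k • (l [x.2 = 0] - m [x.1 = 0]))`.
-/

open Matrix P101
open scoped unitInterval

namespace P095U

/-- unitary valued elements of the dimension drop algebra -/
def UD (p q : ℕ) : Set C(I, Matrix (Fin p × Fin q) (Fin p × Fin q) ℂ) :=
  {f | f ∈ dimDrop p q ∧ ∀ t, f t ∈ unitary (Matrix (Fin p × Fin q) (Fin p × Fin q) ℂ)}

theorem Om_subset_UD (p q : ℕ) : Om (Fin p × Fin q) ⊆ UD p q := by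
  intro f hf
  refine ⟨⟨⟨1, ?_⟩, ⟨1, ?_⟩⟩, hf.1⟩
  · rw [hf.2.1]
    exact one_kronecker_one.symm
  · rw [hf.2.2]
    exact one_kronecker_one.symm

theorem UD_mul {p q : ℕ} : ∀ f ∈ UD p q, ∀ g ∈ UD p q, f * g ∈ UD p q := by
  intro f hf g hg
  exact ⟨mul_mem hf.1 hg.1, fun t => mul_mem (hf.2 t) (hg.2 t)⟩

theorem U7b_continuous_kron {T : Type*} [TopologicalSpace T] {p q : ℕ}
    {A : T → Matrix (Fin p) (Fin p) ℂ} {B : T → Matrix (Fin q) (Fin q) ℂ}
    (hA : Continuous A) (hB : Continuous B) :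
    Continuous fun t => (kroneckerMap (· * ·) (A t) (B t) :
      Matrix (Fin p × Fin q) (Fin p × Fin q) ℂ) := by
  refine continuous_matrix fun i j => ?_
  simp only [kroneckerMap_apply]
  exact (hA.matrix_elem i.1 j.1).mul (hB.matrix_elem i.2 j.2)

theorem exists_end {p q : ℕ} (hp : 1 ≤ p) (hq : 1 ≤ q)
    (f : C(I, Matrix (Fin p × Fin q) (Fin p × Fin q) ℂ)) (hf : f ∈ UD p q) :
    ∃ g ∈ Om (Fin p × Fin q), JoinedIn (UD p q) f g := by
  obtain ⟨⟨⟨a, ha⟩, ⟨b, hb⟩⟩, hu⟩ := hf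
  have ha' : a ∈ unitary (Matrix (Fin p) (Fin p) ℂ) := by
    have h := hu 0
    rw [ha] at h
    exact of_kronecker_one hq h
  have hb' : b ∈ unitary (Matrix (Fin q) (Fin q) ℂ) := by
    have h := hu 1
    rw [hb] at h
    exact of_one_kronecker hp h
  obtain ⟨A, hA⟩ := unitary_joined (star a) (Unitary.star_mem ha')
  obtain ⟨B, hB⟩ := unitary_joined (star b) (Unitary.star_mem hb')
  have c1 : Continuous fun z : I × I => z.1 * unitInterval.symm z.2 :=
    continuous_fst.mul (unitInterval.continuous_symm.comp continuous_snd)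
  have c2 : Continuous fun z : I × I => z.1 * z.2 := continuous_fst.mul continuous_snd
  have c3 : Continuous fun z : I × I =>
      f z.2 * (kroneckerMap (· * ·) (A (z.1 * unitInterval.symm z.2)) (B (z.1 * z.2)) :
        Matrix (Fin p × Fin q) (Fin p × Fin q) ℂ) :=
    (f.continuous.comp continuous_snd).mul
      (U7b_continuous_kron (A.continuous.comp c1) (B.continuous.comp c2))
  obtain ⟨H, hH⟩ : ∃ H : C(I × I, Matrix (Fin p × Fin q) (Fin p × Fin q) ℂ), ∀ s t : I,
      H (s, t) = f t * kroneckerMap (· * ·) (A (s * unitInterval.symm t)) (B (s * t)) :=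
    ⟨⟨_, c3⟩, fun _ _ => rfl⟩
  have hm : ∀ (a a' : Matrix (Fin p) (Fin p) ℂ) (b b' : Matrix (Fin q) (Fin q) ℂ),
      (kroneckerMap (· * ·) a b : Matrix (Fin p × Fin q) (Fin p × Fin q) ℂ) *
        kroneckerMap (· * ·) a' b' = kroneckerMap (· * ·) (a * a') (b * b') :=
    fun a a' b b' => (mul_kronecker_mul a a' b b').symm
  have h11 : (kroneckerMap (· * ·) (1 : Matrix (Fin p) (Fin p) ℂ) (1 : Matrix (Fin q) (Fin q) ℂ) :
      Matrix (Fin p × Fin q) (Fin p × Fin q) ℂ) = 1 := one_kronecker_one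
  have hS : ∀ s, (⟨fun t => H (s, t), by fun_prop⟩ :
      C(I, Matrix (Fin p × Fin q) (Fin p × Fin q) ℂ)) ∈ UD p q := by
    intro s
    refine ⟨⟨⟨a * A s, ?_⟩, ⟨b * B s, ?_⟩⟩, fun t => ?_⟩
    · change H (s, 0) = _
      rw [hH, ha, hm]
      simp
    · change H (s, 1) = _
      rw [hH, hb, hm]
      simp
    · change H (s, t) ∈ _
      rw [hH]
      exact mul_mem (hu t) (kronecker_mem (hA _) (hB _))
  refine ⟨⟨fun t => H (1, t), by fun_prop⟩, ⟨(hS 1).2, ?_, ?_⟩, ?_⟩
  · change H (1, 0) = 1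
    rw [hH, ha, hm]
    simp only [unitInterval.symm_zero, mul_one, mul_zero, Path.target, Path.source]
    rw [(Unitary.mem_iff.1 ha').2]
    exact h11
  · change H (1, 1) = 1
    rw [hH, hb, hm]
    simp only [unitInterval.symm_one, mul_one, mul_zero, Path.target, Path.source]
    rw [(Unitary.mem_iff.1 hb').2]
    exact h11
  · refine joinedIn_of_homotopy (UD p q) H hS (fun t => ?_) (fun t => rfl)
    rw [hH]
    simp only [zero_mul, Path.source]
    rw [h11, mul_one]

/-- diagonal matrices with entries in the circle are unitary -/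
theorem U7b_diag_unitary {ι : Type*} [Fintype ι] [DecidableEq ι] (θ : ι → ℝ) :
    (diagonal fun x => Complex.exp ((θ x : ℂ) * Complex.I)) ∈ unitary (Matrix ι ι ℂ) := by
  have h1 : ∀ t : ℝ, star (Complex.exp ((t : ℂ) * Complex.I)) *
      Complex.exp ((t : ℂ) * Complex.I) = 1 := by
    intro t
    rw [Complex.star_def, ← Complex.exp_conj, ← Complex.exp_add]
    simp
  rw [Unitary.mem_iff, star_eq_conjTranspose, diagonal_conjTranspose,
    diagonal_mul_diagonal, diagonal_mul_diagonal, ← diagonal_one]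
  constructor
  · congr 1
    ext x
    exact h1 (θ x)
  · congr 1
    ext x
    rw [mul_comm]
    exact h1 (θ x)

theorem diag_end {p q : ℕ} (l m k : ℤ) :
    JoinedIn (UD p q) 1 (dg fun x : Fin p × Fin q =>
      k * ((if (x.2 : ℕ) = 0 then l else 0) - (if (x.1 : ℕ) = 0 then m else 0))) := by
  obtain ⟨M, hM⟩ : ∃ M : Fin p → ℤ, M = fun i : Fin p => if (i : ℕ) = 0 then m else 0 := ⟨_, rfl⟩
  obtain ⟨L, hL⟩ : ∃ L : Fin q → ℤ, L = fun i : Fin q => if (i : ℕ) = 0 then l else 0 := ⟨_, rfl⟩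
  have c3 : Continuous fun z : I × I => (diagonal fun x : Fin p × Fin q =>
      Complex.exp (((2 * Real.pi * (z.1 : ℝ) * k * ((1 - (z.2 : ℝ)) * M x.1 + (z.2 : ℝ) * L x.2) :
        ℝ) : ℂ) * Complex.I)) := by fun_prop
  obtain ⟨H, hH⟩ : ∃ H : C(I × I, Matrix (Fin p × Fin q) (Fin p × Fin q) ℂ), ∀ s t : I,
      H (s, t) = diagonal fun x : Fin p × Fin q =>
      Complex.exp (((2 * Real.pi * (s : ℝ) * k * ((1 - (t : ℝ)) * M x.1 + (t : ℝ) * L x.2) :
        ℝ) : ℂ) * Complex.I) :=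
    ⟨⟨_, c3⟩, fun _ _ => rfl⟩
  refine joinedIn_of_homotopy (UD p q) H ?_ ?_ ?_
  · intro s
    refine ⟨⟨⟨diagonal fun i => Complex.exp (((2 * Real.pi * (s : ℝ) * k * M i : ℝ) : ℂ) *
      Complex.I), ?_⟩, ⟨diagonal fun i => Complex.exp (((2 * Real.pi * (s : ℝ) * k * L i : ℝ) : ℂ) *
      Complex.I), ?_⟩⟩, fun t => ?_⟩
    · change H (s, 0) = _
      rw [hH, ← diagonal_one]
      refine Eq.trans ?_ (diagonal_kronecker_diagonal _ _).symm
      congr 1
      ext x
      simp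
    · change H (s, 1) = _
      rw [hH, ← diagonal_one]
      refine Eq.trans ?_ (diagonal_kronecker_diagonal _ _).symm
      congr 1
      ext x
      simp
    · change H (s, t) ∈ _
      rw [hH]
      exact U7b_diag_unitary _
  · intro t
    rw [hH, ContinuousMap.one_apply, ← diagonal_one]
    congr 1
    ext x
    simp
  · intro t
    rw [hH, dg_apply]
    congr 1
    ext x
    have e1 : (((if (x.2 : ℕ) = 0 then l else 0) : ℤ)) = L x.2 := by rw [hL]
    have e2 : (((if (x.1 : ℕ) = 0 then m else 0) : ℤ)) = M x.1 := by rw [hM]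
    rw [e1, e2]
    have e3 : (((2 * Real.pi * ((1 : I) : ℝ) * k * ((1 - (t : ℝ)) * M x.1 + (t : ℝ) * L x.2) :
        ℝ) : ℂ) * Complex.I) = ((k * M x.1 : ℤ) : ℂ) * (2 * Real.pi * Complex.I) +
          2 * Real.pi * Complex.I * ((k * (L x.2 - M x.1) : ℤ) : ℂ) * ((t : ℝ) : ℂ) := by
      push_cast
      ring
    rw [e3, Complex.exp_add, Complex.exp_int_mul_two_pi_mul_I, one_mul]

end P095U
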