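import Vale.Agent.Lib.P095U.U4
import Vale.Agent.Lib.P095U.U5
import Vale.Agent.Lib.P095U.U6
import Vale.Agent.Lib.P095U.U7b

/-!
# P095U, U8: loops of unitary matrices; the unitary group of a dimension drop algebra
-/

open Matrix P101
open scoped unitInterval

namespace P095U

theorem U8_loops (n : ℕ) : ∀ (ι : Type) [Fintype ι] [DecidableEq ι], Fintype.card ι = n + 1 →
    ∀ (x : ι) (v : C(I, Matrix ι ι ℂ)), v ∈ Om ι →
      ∃ k : ℤ, JoinedIn (Om ι) v (dg (Pi.single x k)) := by
  induction n with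
  | zero =>
    intro ι _ _ hc x v hv
    exact base hc x v hv
  | succ n ih =>
    intro ι _ _ hc x v hv
    have hc' : Fintype.card (Option (Fin (n + 1))) = Fintype.card ι := by
      rw [hc, Fintype.card_option, Fintype.card_fin]
    refine reindex_joinedIn (Fintype.equivOfCardEq hc') ?_ x v hv
    intro x v hv
    obtain ⟨v', hv', hvv', hfix⟩ := exists_fix (ι := Option (Fin (n + 1)))
      (by rw [hc', hc]; omega) none v hv
    obtain ⟨f, hf, rfl⟩ := exists_of_fix v' hv' hfix
    obtain ⟨k, hk⟩ := ih (Fin (n + 1)) (Fintype.card_fin _) 0 f hf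
    refine ⟨k, (hvv'.trans (cor_joinedIn hk)).trans ?_⟩
    rw [cor_dg]
    exact dg_single_joined (some 0) x k

/-- every based loop in `U(ι)` is homotopic to a diagonal one with one nontrivial entry.  Induction over
the cardinality: `Fintype.induction_empty_option` (`reindex_joinedIn`; instances of `DecidableEq` are
subsingletons), for `Option κ`: `κ` empty: `base`; otherwise `y : κ`, `exists_fix` at `none`, `exists_of_fix`,
the induction hypothesis at `y`, `cor_joinedIn`, `cor_dg`, `dg_single_joined`. -/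
theorem loops (ι : Type) [Fintype ι] [DecidableEq ι] (x : ι) (v : C(I, Matrix ι ι ℂ))
    (hv : v ∈ Om ι) : ∃ k : ℤ, JoinedIn (Om ι) v (dg (Pi.single x k)) := by
  have : 0 < Fintype.card ι := Fintype.card_pos_iff.2 ⟨x⟩
  exact U8_loops (Fintype.card ι - 1) ι (by omega) x v hv

/-- the unitary group of a prime dimension drop algebra is path connected -/
theorem UD_joined {p q : ℕ} (hp : 1 ≤ p) (hq : 1 ≤ q) (hpq : Nat.Coprime p q)
    (f : C(I, Matrix (Fin p × Fin q) (Fin p × Fin q) ℂ)) (hf : f ∈ UD p q) :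
    JoinedIn (UD p q) 1 f := by
  have hx : 0 < p * q := Nat.mul_pos hp hq
  obtain ⟨g, hg, hfg⟩ := exists_end hp hq f hf
  let x : Fin p × Fin q := (⟨0, hp⟩, ⟨0, hq⟩)
  obtain ⟨k, hk⟩ := loops (Fin p × Fin q) x g hg
  obtain ⟨l, m, hlm, hsum⟩ := exists_coeff hp hq hpq
  have h1 := dg_joined x fun x : Fin p × Fin q =>
    k * ((if (x.2 : ℕ) = 0 then l else 0) - (if (x.1 : ℕ) = 0 then m else 0))
  rw [← Finset.mul_sum, hsum, mul_one] at h1
  have h2 := diag_end (p := p) (q := q) l m k
  exact (h2.trans ((h1.trans hk.symm).mono (Om_subset_UD p q))).trans hfg.symm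

end P095U
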